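import Vale.Agent.P300.H354.Good
import Vale.Agent.P300.H196.Lim
import Vale.Agent.P300.H787.Hat
import Vale.Agent.P300.H839.Labels
import Vale.Agent.P300.H232.End
import Vale.Agent.P300.H707.SphY

/-!
# P300, block D3 (helper354): the chains of rational curves

`Lvl`: the completion `Z` of the covering `US` of one `G`-set `F`, with the lifts over the charts 5,
6 and 15.  `chains`: a tower of such levels with unbounded sets of good labels gives
`H232.Chains E (Z 0)`.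
-/

set_option autoImplicit false

open Set Filter Topology Complex
open scoped Manifold ContDiff

namespace Vale.Agent.P300.Curve

open Vale.Agent.P300.H753 (Om Omp Rp pw theta)
open Vale.Agent.P300.H142 (R Rt)

/-- Extension of a continuous map from the punctured domain, over a continuous map to `Y`. -/
theorem exists_H {Z Y : Type*} [TopologicalSpace Z] [TopologicalSpace Y] [T2Space Z]
    [CompactSpace Z] [T2Space Y] {π : Z → Y} (hπ : Continuous π)
    (hfin : ∀ y, (π ⁻¹' {y}).Finite) {p q : ℕ} {f : ℂ × ℂ → Z}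
    (hf : ContinuousOn f (Omp R p q)) {k : ℂ × ℂ → Y} (hk : ContinuousOn k R)
    (hfk : ∀ x ∈ Omp R p q, π (f x) = k (pw p q x)) :
    ∃ H : ℂ × ℂ → Z, ContinuousOn H (Om R p q) ∧ (∀ x ∈ Omp R p q, H x = f x) ∧
      ∀ x ∈ Om R p q, π (H x) = k (pw p q x) := by
  have hlim : ∀ x ∈ Om R p q, ∃ z, Tendsto f (𝓝[Omp R p q] x) (𝓝 z) ∧ π z = k (pw p q x) :=
    fun x hx => H787.exists_lim (B := Om R p q) hπ hfin H787.Omp_subset_Om hf
      (F := fun x => k (pw p q x)) (hk.comp (H753.continuous_pw p q).continuousOn fun x hx => hx)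
      hfk (H787.nonsep_Om Spec.isOpen_R p q) hx
  have hcl := H753.Om_subset_closure_Omp Spec.isOpen_R p q
  refine ⟨extendFrom (Omp R p q) f, continuousOn_extendFrom hcl fun x hx => ?_, fun x hx => ?_,
    fun x hx => ?_⟩
  · obtain ⟨z, hz, -⟩ := hlim x hx
    exact ⟨z, hz⟩
  · exact extendFrom_eq (hcl hx.1) (hf x hx)
  · obtain ⟨z, hz, hz'⟩ := hlim x hx
    rw [extendFrom_eq (hcl hx) hz]
    exact hz'

/-- One level: `US` is the covering of the `G`-set `F`, `Z` its completion, `π : Z → Y`. -/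
structure Lvl {G : Type} [Group G] (A : Tor.Arr G) (F : Type) [MulAction G F] {B Y : Type}
    [TopologicalSpace B] [TopologicalSpace Y] (val : B → ℂ × ℂ) (J : ℂ × ℂ → Y)
    (US Z : Type) [TopologicalSpace US] [TopologicalSpace Z] where
  pr : US → B
  cov : IsCoveringMap pr
  κ5 : ℂ × ℂ → B
  κ6 : ℂ × ℂ → B
  κX : ℂ × ℂ → B
  L5 : ℂ → ℂ → F → US
  L6 : ℂ → ℂ → F → US
  LX : ℂ → ℂ → F → US
  n5 : H753.Node R pr κ5 (MulAction.toPermHom G F (A.wa 5)) (MulAction.toPermHom G F (A.wb 5)) L5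
  n6 : H753.Node R pr κ6 (MulAction.toPermHom G F (A.wa 6)) (MulAction.toPermHom G F (A.wb 6)) L6
  nX : H753.Node R pr κX (MulAction.toPermHom G F (A.wa 15)) (MulAction.toPermHom G F (A.wb 15)) LX
  v5 : ∀ w ∈ Rp R, val (κ5 w) = H142.kap 5 w
  v6 : ∀ w ∈ Rp R, val (κ6 w) = H142.kap 6 w
  vX : ∀ w ∈ Rp R, val (κX w) = H142.kapX w
  base1 : ∀ (s : F) (u v u' v' : ℝ), 0 < u → u < 1 → 0 < v → v < 1 → 0 < u' → u' < 1 →
    0 < v' → v' < 1 → H142.kap 5 (u, v) = H142.kap 6 (u', v') →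
    L5 (Real.log u) (Real.log v) s = L6 (Real.log u') (Real.log v') s
  base2 : ∀ (s : F) (u v u' v' : ℝ), 0 < u → u < 1 → 0 < v → v < 1 → 0 < u' → u' < 1 →
    0 < v' → v' < 1 → H142.kap 5 (u, v) = H142.kapX (u', v') →
    L5 (Real.log u) (Real.log v) s = LX (Real.log u') (Real.log v') s
  ι : US → Z
  ι_cont : Continuous ι
  t2 : T2Space Z
  cpt : CompactSpace Z
  π : Z → Y
  π_cont : Continuous π
  fin : ∀ y, (π ⁻¹' {y}).Finite
  π_ι : ∀ x, π (ι x) = J (val (pr x))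
  /-- the nodes over chart 5 are distinct for different fixed labels -/
  ninj : ∀ s s' : F, A.wa 5 • s = s → A.wb 5 • s = s → A.wa 5 • s' = s' → A.wb 5 • s' = s' →
    ∀ H H' : ℂ × ℂ → Z, ContinuousOn H (Om R 1 1) → ContinuousOn H' (Om R 1 1) →
      (∀ x ∈ Omp R 1 1, H x = ι (theta L5 1 1 s x)) →
      (∀ x ∈ Omp R 1 1, H' x = ι (theta L5 1 1 s' x)) → H (0, 0) = H' (0, 0) → s = s'

section one

variable {G : Type} [Group G] {A : Tor.Arr G} {F : Type} [MulAction G F] {B Y : Type}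
  [TopologicalSpace B] [TopologicalSpace Y] {val : B → ℂ × ℂ} {J : ℂ × ℂ → Y}
  {US Z : Type} [TopologicalSpace US] [TopologicalSpace Z] {m : ℕ} {S : Type} {j : S → F}
  {c c' : Equiv.Perm S}

/-- The charts at the three nodes for the good labels. -/
structure Lvl.IsHs (V : Lvl A F val J US Z) (m : ℕ) (j : S → F) (c c' : Equiv.Perm S)
    (k5 k6 kX : ℂ × ℂ → Y) (H5 H6 HX : S → ℂ × ℂ → Z) : Prop where
  lev : Lev Z S m c c' H5 H6 HX
  e5 : ∀ s, ∀ x ∈ Omp R 1 1, H5 s x = V.ι (theta V.L5 1 1 (j s) x)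
  e6 : ∀ s, ∀ x ∈ Omp R m 1, H6 s x = V.ι (theta V.L6 m 1 (j s) x)
  eX : ∀ s, ∀ x ∈ Omp R 1 m, HX s x = V.ι (theta V.LX 1 m (j s) x)
  p5 : ∀ s, ∀ x ∈ Om R 1 1, V.π (H5 s x) = k5 x
  p6 : ∀ s, ∀ x ∈ Om R m 1, V.π (H6 s x) = k6 (pw m 1 x)
  pX : ∀ s, ∀ x ∈ Om R 1 m, V.π (HX s x) = kX (pw 1 m x)

theorem pw_one_one (x : ℂ × ℂ) : pw 1 1 x = x := by
  unfold pw; simp

/-- the extension of one chart -/
theorem exists_ext {κ : ℂ × ℂ → ℂ × ℂ} {κ' : ℂ × ℂ → B} {a b : Equiv.Perm F}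
    {L : ℂ → ℂ → F → US} (V : Lvl A F val J US Z) [T2Space Y] {k : ℂ × ℂ → Y}
    (hN : H753.Node R V.pr κ' a b L)
    (hv : ∀ w ∈ Rp R, val (κ' w) = κ w) (hk : H707.IsCh J κ k) {p q : ℕ} {s : F}
    (ho : H753.Ord a b s p q) :
    ∃ H : ℂ × ℂ → Z, ContinuousOn H (Om R p q) ∧ (∀ x ∈ Omp R p q, H x = V.ι (theta L p q s x)) ∧
      ∀ x ∈ Om R p q, V.π (H x) = k (pw p q x) := by
  have := V.t2
  have := V.cpt
  refine exists_H V.π_cont V.fin (f := fun x => V.ι (theta L p q s x)) ?_ hk.cont ?_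
  · exact V.ι_cont.comp_continuousOn (hN.continuousOn_theta ho)
  · intro x hx
    have hw := H753.pw_mem_Rp hx
    rw [V.π_ι, hN.pr_theta hx, hv _ hw]
    exact (hk.eq _ hw.1 hw.2.1 hw.2.2).symm

theorem Lvl.exists_Hs (V : Lvl A F val J US Z) [T2Space Y] (hval : Function.Injective val)
    (good : Good A F m j c c') {k5 k6 kX : ℂ × ℂ → Y} (h5 : H707.IsCh J (H142.kap 5) k5)
    (h6 : H707.IsCh J (H142.kap 6) k6) (hX : H707.IsCh J H142.kapX kX) :
    ∃ H5 H6 HX : S → ℂ × ℂ → Z, V.IsHs m j c c' k5 k6 kX H5 H6 HX := by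
  have := V.t2
  have E5 := fun s => exists_ext V V.n5 V.v5 h5 (good.ord5 s)
  have E6 := fun s => exists_ext V V.n6 V.v6 h6 (good.ord6 s)
  have EX := fun s => exists_ext V V.nX V.vX hX (good.ord15 s)
  choose H5 a5 b5 d5 using E5
  choose H6 a6 b6 d6 using E6
  choose HX aX bX dX using EX
  have hc : c ^ m = 1 := Equiv.ext good.c_pow
  have hc' : c' ^ m = 1 := Equiv.ext good.c_pow'
  obtain ⟨l1, l2, l3, l4⟩ := H196.lim (Z := Z) V.cov hval
    (L0 := fun z s => V.L5 z.1 z.2 (j s)) (L1 := fun z s => V.L6 z.1 z.2 (j s))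
    (L2 := fun z s => V.LX z.1 z.2 (j s)) (fun s => V.n5.Lcont (j s)) (fun s => V.n6.Lcont (j s))
    (fun s => V.nX.Lcont (j s))
    (fun z hz s => by
      rw [V.n5.Lpr z hz (j s)]
      exact V.v5 _ ⟨hz, exp_ne_zero _, exp_ne_zero _⟩)
    (fun z hz s => by
      rw [V.n6.Lpr z hz (j s)]
      exact V.v6 _ ⟨hz, exp_ne_zero _, exp_ne_zero _⟩)
    (fun z hz s => by
      rw [V.nX.Lpr z hz (j s)]
      exact V.vX _ ⟨hz, exp_ne_zero _, exp_ne_zero _⟩)
    (fun s => V.base1 (j s)) (fun s => V.base2 (j s)) (ι := V.ι) good.hm a5 a6 aX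
    (fun s x hx => by
      rw [b5 s x hx]
      unfold theta
      rw [Nat.cast_one, one_mul, one_mul])
    (fun s x hx => by
      rw [b6 s x hx]
      unfold theta
      rw [Nat.cast_one, one_mul])
    (fun s x hx => by
      rw [bX s x hx]
      unfold theta
      rw [Nat.cast_one, one_mul])
    (c := c) (c' := c')
    (fun z hz s => by
      rw [V.n6.La z hz (j s), good.jc]
      rfl) hc
    (fun z hz s => by
      rw [V.nX.Lb z hz (j s), good.jc']
      rfl) hc'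
  have hsl : ∀ r : ℂ, r ∈ slit m → r ^ m ∈ H196.Slit := fun r hr t ht => ne_of_slit hr ht
  exact ⟨H5, H6, HX, {
    lev :=
      { hm := good.hm.ne'
        H0_cont := a5
        H1_cont := a6
        H2_cont := aX
        c_pow := good.c_pow
        c_pow' := good.c_pow'
        rot1 := fun s r hr => l2 s r (hsl r hr)
        rot2 := fun s r hr => l4 s r (hsl r hr)
        mat1 := fun s r hr hr' => l1 s r hr'.1 (hsl r hr) hr'.2
        mat2 := fun s r hr hr' => l3 s r hr'.1 (hsl r hr) hr'.2 }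
    e5 := b5
    e6 := b6
    eX := bX
    p5 := fun s x hx => by rw [d5 s x hx, pw_one_one]
    p6 := d6
    pX := dX }⟩

/-- the nodes are distinct -/
theorem Lvl.IsHs.inj {V : Lvl A F val J US Z} {k5 k6 kX : ℂ × ℂ → Y} {H5 H6 HX : S → ℂ × ℂ → Z}
    (h : V.IsHs m j c c' k5 k6 kX H5 H6 HX) (good : Good A F m j c c') {s s' : S}
    (e : H5 s (0, 0) = H5 s' (0, 0)) : s = s' :=
  good.inj (V.ninj _ _ (good.t'' s) (good.t' s) (good.t'' s') (good.t' s') _ _ (h.lev.H0_cont s)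
    (h.lev.H0_cont s') (h.e5 s) (h.e5 s') e)

end one

/-- continuous functions which agree on the punctured domain agree -/
theorem eq_of_Omp {Z : Type*} [TopologicalSpace Z] [T2Space Z] {p q : ℕ} {f g : ℂ × ℂ → Z}
    (hf : ContinuousOn f (Om R p q)) (hg : ContinuousOn g (Om R p q))
    (h : ∀ x ∈ Omp R p q, f x = g x) : ∀ x ∈ Om R p q, f x = g x := by
  intro x hx
  have ho : IsOpen (Om R p q) := H753.isOpen_Om Spec.isOpen_R p q
  have hcl : x ∈ closure (Omp R p q) := H753.Om_subset_closure_Omp Spec.isOpen_R p q hx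
  have : (𝓝[Omp R p q] x).NeBot := mem_closure_iff_nhdsWithin_neBot.1 hcl
  have h1 : Tendsto f (𝓝[Omp R p q] x) (𝓝 (f x)) :=
    (hf.continuousAt (ho.mem_nhds hx)).tendsto.mono_left nhdsWithin_le_nhds
  have h2 : Tendsto g (𝓝[Omp R p q] x) (𝓝 (g x)) :=
    (hg.continuousAt (ho.mem_nhds hx)).tendsto.mono_left nhdsWithin_le_nhds
  refine tendsto_nhds_unique (h1.congr' ?_) h2
  filter_upwards [self_mem_nhdsWithin] with y hy
  exact h y hy

theorem theta_mem {p q : ℕ} {x : ℂ × ℂ} (hx : x ∈ Omp R p q) :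
    ((p : ℂ) * log x.1, (q : ℂ) * log x.2) ∈ Rt := by
  show (exp ((p : ℂ) * log x.1), exp ((q : ℂ) * log x.2)) ∈ R
  rw [exp_nat_mul, exp_nat_mul, exp_log hx.2.1, exp_log hx.2.2]
  exact hx.1

/-- helper839's `end_of_curves'` (H839/Labels.lean) with the conclusion `H232.Chains`. -/
theorem chains_of_curves {E : Type} [NormedAddCommGroup E] [NormedSpace ℂ E]
    {X : Type} [TopologicalSpace X] [T2Space X] [CompactSpace X] [ChartedSpace E X]
    {Y : Type} [TopologicalSpace Y] [T2Space Y] {π : X → Y} (hπ : Continuous π)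
    {J : Type} {S : J → H839.Sph Y}
    (fin0 : ∀ j, (π ⁻¹' {(S j).f 0}).Finite) (fin1 : ∀ j, (π ⁻¹' {(S j).g 0}).Finite)
    {Lab : Type} (e : J → Lab → C(ℂ, X)) (m : J → ℕ) (hm : ∀ j, 0 < m j)
    (he : ∀ j s w, π (e j s w) = (S j).f (w ^ m j))
    (hol : ∀ j s, ContMDiff 𝓘(ℂ) 𝓘(ℂ, E) ω (e j s))
    {D : Set X} (hD : D.Finite)
    (tower : ∀ n : ℕ, ∃ (Z : Type) (_ : TopologicalSpace Z) (q : Z → X) (_ : IsCoveringMap q)
      (Lab' : Type) (φ : Lab' → Lab) (F : J → Lab' → C(ℂ, Z)) (node : Lab' → Z)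
      (c : J → Equiv.Perm Lab') (s₀ : Lab') (T : Finset Lab'),
      InjOn node T ∧ (∀ j s w, q (F j s w) = e j (φ s) w) ∧
      (∀ j s (k : ℤ), F j s (Complex.exp (2 * Real.pi * Complex.I / m j) ^ k) =
        node ((c j ^ k) s)) ∧
      (∀ s, q (node s) ∈ D) ∧ n ≤ T.card ∧ ∀ t ∈ T, ∃ g ∈ Subgroup.closure (range c), g s₀ = t) :
    H232.Chains E X := by
  classical
  have hα := fun i : J × Lab => H839.exists_sph_of_entire hπ.isClosedMap (fin0 i.1) (fin1 i.1)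
    (hm i.1) (he i.1 i.2)
  choose α hα1 hα2 using hα
  refine ⟨J × Lab, fun i => (α i).f, fun i => (α i).g, D,
    (fun i => by
      show ContMDiff 𝓘(ℂ) 𝓘(ℂ, E) ω (α i).f
      rw [hα1]; exact hol i.1 i.2), (fun i w hw => (α i).h' hw), hD, fun n => ?_⟩
  obtain ⟨Z, _, q, hq, Lab', φ, F, node, c, s₀, T, hinj, hF, hnode, hDn, hn, hT⟩ := tower n
  refine ⟨Z, inferInstance, q, hq, node s₀, T.image node, hDn s₀, ?_, fun z hz => ?_⟩
  · rwa [Finset.card_image_of_injOn hinj]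
  obtain ⟨t, ht, rfl⟩ := Finset.mem_image.1 hz
  refine ⟨?_, hDn t⟩
  have step : ∀ (j : J) (s : Lab') (k l : ℤ),
      H527.Chn (A := fun _ => ℂ) (fun i : J × Lab => (α i).f) q (node s₀) (node ((c j ^ k) s)) →
      H527.Chn (A := fun _ => ℂ) (fun i : J × Lab => (α i).f) q (node s₀) (node ((c j ^ l) s)) := by
    intro j s k l h
    rw [← hnode] at h ⊢
    refine H527.Chn.step (A := fun _ => ℂ) (α := fun i : J × Lab => (α i).f) (j, φ s) (F j s) ?_
      _ _ h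
    funext w
    simp only [Function.comp_apply, hF, hα1]
  have key : ∀ g ∈ Subgroup.closure (range c),
      (∀ s, H527.Chn (A := fun _ => ℂ) (fun i : J × Lab => (α i).f) q (node s₀) (node s) →
        H527.Chn (A := fun _ => ℂ) (fun i : J × Lab => (α i).f) q (node s₀) (node (g s))) ∧
      (∀ s, H527.Chn (A := fun _ => ℂ) (fun i : J × Lab => (α i).f) q (node s₀) (node s) →
        H527.Chn (A := fun _ => ℂ) (fun i : J × Lab => (α i).f) q (node s₀) (node (g⁻¹ s))) := by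
    intro g hg
    induction hg using Subgroup.closure_induction with
    | mem g hg =>
      obtain ⟨j, rfl⟩ := hg
      refine ⟨fun s hs => ?_, fun s hs => ?_⟩
      · have := step j s 0 1 (by simpa using hs)
        simpa using this
      · have := step j s 0 (-1) (by simpa using hs)
        simpa using this
    | one => exact ⟨fun s hs => by simpa using hs, fun s hs => by simpa using hs⟩
    | mul g h _ _ hg hh =>
      refine ⟨fun s hs => ?_, fun s hs => ?_⟩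
      · have := hg.1 _ (hh.1 s hs)
        simpa using this
      · have := hh.2 _ (hg.2 s hs)
        simpa [mul_inv_rev] using this
    | inv g _ hg => exact ⟨hg.2, by simpa using hg.1⟩
  obtain ⟨g, hg, rfl⟩ := hT t ht
  exact (key g hg).1 s₀ H527.Chn.base

/-- **Block D3.** -/
theorem chains {G : Type} [Group G] {A : Tor.Arr G} {B Y : Type} [TopologicalSpace B]
    [TopologicalSpace Y] [T2Space Y] {val : B → ℂ × ℂ} (hval : Function.Injective val)
    {J : ℂ × ℂ → Y} {k5 k6 kX : ℂ × ℂ → Y} (h5 : H707.IsCh J (H142.kap 5) k5)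
    (h6 : H707.IsCh J (H142.kap 6) k6) (hX : H707.IsCh J H142.kapX kX)
    {Sp : Bool → H839.Sph Y}
    (f6 : ∀ w : ℂ, (w, 0) ∈ R → (Sp false).f w = k6 (w, 0))
    (f5 : ∀ w : ℂ, (1 - w, 0) ∈ R → (Sp false).f w = k5 (1 - w, 0))
    (fX : ∀ w : ℂ, (0, w) ∈ R → (Sp true).f w = kX (0, w))
    (f5' : ∀ w : ℂ, (0, 1 - w) ∈ R → (Sp true).f w = k5 (0, 1 - w))
    {F : ℕ → Type} [∀ n, MulAction G (F n)] {US Z : ℕ → Type} [∀ n, TopologicalSpace (US n)]
    [∀ n, TopologicalSpace (Z n)] (V : ∀ n, Lvl A (F n) val J (US n) (Z n))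
    (φ : ∀ n, F n → F 0) (hφ : ∀ (n : ℕ) (x : G) (s : F n), φ n (x • s) = x • φ n s)
    (g : ∀ n, US n → US 0) (q : ∀ n, Z n → Z 0) (hq : ∀ n, IsCoveringMap (q n))
    (hqι : ∀ n x, q n ((V n).ι x) = (V 0).ι (g n x))
    (g5 : ∀ n, ∀ z ∈ Rt, ∀ s, g n ((V n).L5 z.1 z.2 s) = (V 0).L5 z.1 z.2 (φ n s))
    (g6 : ∀ n, ∀ z ∈ Rt, ∀ s, g n ((V n).L6 z.1 z.2 s) = (V 0).L6 z.1 z.2 (φ n s))
    (gX : ∀ n, ∀ z ∈ Rt, ∀ s, g n ((V n).LX z.1 z.2 s) = (V 0).LX z.1 z.2 (φ n s))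
    {m : ℕ} {S : ℕ → Type} {j : ∀ n, S n → F n} {c c' : ∀ n, Equiv.Perm (S n)}
    (good : ∀ n, Good A (F n) m (j n) (c n) (c' n))
    (ψ : ∀ n, S n → S 0) (hψ : ∀ n s, φ n (j n s) = j 0 (ψ n s)) (s₀ : ∀ n, S n)
    (unb : ∀ N : ℕ, ∃ (n : ℕ) (T : Finset (S n)), N ≤ T.card ∧
      ∀ t ∈ T, ∃ g ∈ Subgroup.closure {c n, c' n}, g (s₀ n) = t)
    {E : Type} [NormedAddCommGroup E] [NormedSpace ℂ E] [ChartedSpace E (Z 0)]
    (hol : ∀ (b : Bool) (e : C(ℂ, Z 0)) (m : ℕ), 0 < m →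
      (∀ w, (V 0).π (e w) = (Sp b).f (w ^ m)) → ContMDiff 𝓘(ℂ) 𝓘(ℂ, E) ω e) :
    H232.Chains E (Z 0) := by
  have hH := fun n => (V n).exists_Hs hval (good n) h5 h6 hX
  choose H5 H6 HX hs using hH
  have := (V 0).t2
  have := (V 0).cpt
  have hc : ∀ n s, ψ n (c n s) = c 0 (ψ n s) := by
    intro n s
    apply (good 0).inj
    rw [← hψ, (good n).jc, hφ, hψ, (good 0).jc]
  have hc' : ∀ n s, ψ n (c' n s) = c' 0 (ψ n s) := by
    intro n s
    apply (good 0).inj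
    rw [← hψ, (good n).jc', hφ, hψ, (good 0).jc']
  have q5 : ∀ n s, ∀ x ∈ Om R 1 1, q n (H5 n s x) = H5 0 (ψ n s) x := by
    intro n s
    refine eq_of_Omp ((hq n).continuous.comp_continuousOn ((hs n).lev.H0_cont s))
      ((hs 0).lev.H0_cont _) fun x hx => ?_
    show q n (H5 n s x) = _
    rw [(hs n).e5 s x hx, hqι, (hs 0).e5 _ x hx]
    have := g5 n _ (theta_mem hx) (j n s)
    rw [hψ] at this
    exact congrArg _ this
  have q6 : ∀ n s, ∀ x ∈ Om R m 1, q n (H6 n s x) = H6 0 (ψ n s) x := by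
    intro n s
    refine eq_of_Omp ((hq n).continuous.comp_continuousOn ((hs n).lev.H1_cont s))
      ((hs 0).lev.H1_cont _) fun x hx => ?_
    show q n (H6 n s x) = _
    rw [(hs n).e6 s x hx, hqι, (hs 0).e6 _ x hx]
    have := g6 n _ (theta_mem hx) (j n s)
    rw [hψ] at this
    exact congrArg _ this
  have qX : ∀ n s, ∀ x ∈ Om R 1 m, q n (HX n s x) = HX 0 (ψ n s) x := by
    intro n s
    refine eq_of_Omp ((hq n).continuous.comp_continuousOn ((hs n).lev.H2_cont s))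
      ((hs 0).lev.H2_cont _) fun x hx => ?_
    show q n (HX n s x) = _
    rw [(hs n).eX s x hx, hqι, (hs 0).eX _ x hx]
    have := gX n _ (theta_mem hx) (j n s)
    rw [hψ] at this
    exact congrArg _ this
  have h00 : ((0 : ℂ), (0 : ℂ)) ∈ Om R 1 1 := by
    rw [mem_Om_left one_ne_zero, mem_slit_iff]
    simp
  have he : ∀ (b : Bool) (s : S 0) (w : ℂ),
      (V 0).π ((hs 0).lev.E b s w) = (Sp b).f (w ^ m) := by
    intro b s w
    exact (hs 0).lev.E_proj (hs 0).p5 (hs 0).p6 (hs 0).pX (f := fun b => (Sp b).f) f6 f5 fX f5' b s w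
  have hm : 0 < m := (good 0).hm
  refine chains_of_curves (V 0).π_cont (S := Sp) (fun _ => (V 0).fin _) (fun _ => (V 0).fin _)
    (fun b s => (hs 0).lev.E b s) (fun _ => m) (fun _ => hm) he
    (fun b s => hol b _ m hm (he b s)) (D := (V 0).π ⁻¹' {k5 (0, 0)}) ((V 0).fin _) fun N => ?_
  obtain ⟨n, T, hT, hT'⟩ := unb N
  refine ⟨Z n, inferInstance, q n, hq n, S n, ψ n, fun b s => (hs n).lev.E b s,
    fun s => H5 n s (0, 0), fun b => cc (c n) (c' n) b, s₀ n, T, ?_, ?_, ?_, ?_, hT, ?_⟩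
  · intro s _ s' _ e
    exact (hs n).inj (good n) e
  · intro b s w
    exact (hs n).lev.E_map (hs 0).lev (hc n) (hc' n) (q5 n) (q6 n) (qX n) b s w
  · intro b s k
    exact (hs n).lev.E_node b s k
  · intro s
    show (V 0).π (q n (H5 n s (0, 0))) = k5 (0, 0)
    rw [q5 n s _ h00, (hs 0).p5 _ _ h00]
  · intro t ht
    obtain ⟨g, hg, e⟩ := hT' t ht
    refine ⟨g, ?_, e⟩
    have : ({c n, c' n} : Set (Equiv.Perm (S n))) ⊆ range (fun b => cc (c n) (c' n) b) := by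
      rintro x (rfl | rfl)
      · exact ⟨false, rfl⟩
      · exact ⟨true, rfl⟩
    exact Subgroup.closure_mono this hg

end Vale.Agent.P300.Curve
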