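import Vale.Agent.P300.H354.D3
import Vale.Agent.P300.ASM.XF
import Vale.Agent.P300.H959.Lab
import Vale.Agent.P300.H540.Base
import Vale.Agent.P300.H787.NInj
import Vale.Agent.P300.H707.SphInst
import Vale.Agent.P300.H732.HolS

/-!
# P300, block D3, value (helper354): `chains hN : H232.Chains (Fin 2 → ℂ) (XX hN 0)`
-/

set_option autoImplicit false

open Set Filter Topology Complex
open scoped Manifold ContDiff

namespace Vale.Agent.P300.Curve

open Vale.Agent.P300.ASM

/-- the good labels of the level `n` -/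
theorem good (n : ℕ) : Good (Spec.toA rE) (F n) m (fun s : ASM.Good n => (s : F n)) (cp n false)
    (cp n true) where
  hm := m_pos
  inj := Subtype.val_injective
  t'' s := t0''_smul s.2
  t' s := by
    have h1 := t0'_smul s.2
    have h2 : (Spec.toA rE).c2⁻¹ * (Spec.toA rE).c1⁻¹ * (Spec.toA rE).T0 = H708.arrE.t0' := by
      show H708.arrE.c2⁻¹ * H708.arrE.c1⁻¹ * H708.arrE.T0 =
        (H708.arrE.c1 * H708.arrE.c2)⁻¹ * H708.arrE.T0
      rw [mul_inv_rev]
    rw [h2]
    exact h1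
  jc s := cp_false n s
  jc' s := cp_true n s
  ord s k := c2_zpow_smul s.2 k
  ord' s k := c3_zpow_smul s.2 k

variable (hN : Spec.NodeSpec rE)

theorem isChart_val (ν : Fin 16) (w : ℂ × ℂ) (hw : w ∈ H753.Rp H142.R) :
    ((Spec.kapU ν w : TOR.Arr.UT) : ℂ × ℂ) = Spec.kapE ν w :=
  Spec.kapU_coe ν (Spec.Rp_subset_W hw)

theorem kapE5 : Spec.kapE 5 = H142.kap 5 := Spec.kapE_castSucc 5

theorem kapE6 : Spec.kapE 6 = H142.kap 6 := Spec.kapE_castSucc 6

/-- the level `n` -/
noncomputable def lvl (n : ℕ) : Lvl (Spec.toA rE) (F n) (Subtype.val : H142.U → ℂ × ℂ) H242.io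
    (rE.Tot (F n)) (XX hN n) where
  pr := prU n
  cov := rE.isCoveringMap_pr
  κ5 := Spec.kapU 5
  κ6 := Spec.kapU 6
  κX := Spec.kapU 15
  L5 := Spec.LL hN (F n) 5
  L6 := Spec.LL hN (F n) 6
  LX := Spec.LL hN (F n) 15
  n5 := Spec.node hN (F n) 5
  n6 := Spec.node hN (F n) 6
  nX := Spec.node hN (F n) 15
  v5 w hw := by rw [← kapE5]; exact isChart_val 5 w hw
  v6 w hw := by rw [← kapE6]; exact isChart_val 6 w hw
  vX w hw := by rw [← Spec.kapE_last]; exact isChart_val 15 w hw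
  base1 := H540.base1 hN (F n)
  base2 := H540.base2 hN (F n)
  ι := Xincl hN n
  ι_cont := (XM hN n).continuous_incl
  t2 := inferInstance
  cpt := inferInstance
  π := Xpi hN n
  π_cont := continuous_Xpi hN n
  fin := finite_fibre_Xpi hN n
  π_ι := Xpi_incl hN n
  ninj s s' ha hb ha' hb' H H' cH cH' e e' h := by
    have : Finite (liftsU hN n).I := (liftsU hN n).finite_I
    refine H787.ninj (liftsU hN n) H242.yData 5 (fun k l => ?_) (fun k l => ?_) cH cH' e e'
      H787.zero_mem_R h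
    · refine (perm_apply _ _ k l s).trans ?_
      show (Spec.toA rE).wa 5 ^ k • (Spec.toA rE).wb 5 ^ l • s = s
      rw [zpow_fix hb l, zpow_fix ha k]
    · refine (perm_apply _ _ k l s').trans ?_
      show (Spec.toA rE).wa 5 ^ k • (Spec.toA rE).wb 5 ^ l • s' = s'
      rw [zpow_fix hb' l, zpow_fix ha' k]

theorem g_LL {n : ℕ} (ν : Fin 16) (z : ℂ × ℂ) (hz : z ∈ H142.Rt) (s : F n) :
    g (Nat.zero_le n) (Spec.LL hN (F n) ν z.1 z.2 s) =
      Spec.LL hN (F 0) ν z.1 z.2 (pj (Nat.zero_le n) s) :=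
  (Spec.lifts hN ν).map (F n) (F 0) (pj (Nat.zero_le n)) (fun x s => map_smul _ x s) z hz s

/-- **Block D3.** -/
theorem chains_XX : H232.Chains (Fin 2 → ℂ) (XX hN 0) := by
  refine chains (A := Spec.toA rE) (val := (Subtype.val : H142.U → ℂ × ℂ)) Subtype.val_injective
    (J := H242.io) (H707.isCh_kapY 5) (H707.isCh_kapY 6) H707.isCh_kapYX (Sp := H707.S)
    (fun w hw => H707.S_f1 hw) (fun w hw => H707.S_f0 hw) (fun w hw => H707.S_f1' hw)
    (fun w hw => H707.S_f0' hw) (F := F) (US := fun n => rE.Tot (F n)) (Z := fun n => XX hN n)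
    (lvl hN) (fun n => pj (Nat.zero_le n)) (fun n x s => map_smul _ x s)
    (fun n => g (Nat.zero_le n)) (fun n => Xext hN (Nat.zero_le n))
    (fun n => isCoveringMap_Xext hN (Nat.zero_le n)) (fun n x => Xext_incl hN (Nat.zero_le n) x)
    (fun n z hz s => g_LL hN 5 z hz s) (fun n z hz s => g_LL hN 6 z hz s)
    (fun n z hz s => g_LL hN 15 z hz s) good (fun n => gpj (Nat.zero_le n)) (fun n s => rfl)
    gbase (fun N => ?_) (E := Fin 2 → ℂ) (fun b e k _ h => ?_)
  · obtain ⟨n, T, h1, h2⟩ := exists_labels N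
    refine ⟨n, T, h1, fun t ht => ?_⟩
    obtain ⟨x, hx, e⟩ := h2 t ht
    refine ⟨x, ?_, e⟩
    refine Subgroup.closure_mono ?_ hx
    rintro _ ⟨b, rfl⟩
    cases b
    · exact Or.inl rfl
    · exact Or.inr rfl
  · exact H732.hol_S (liftsU hN 0) b e k h

end Vale.Agent.P300.Curve
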