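import Mathlib

/-!
# P300: Fox derivatives in the free algebra and the powers of the augmentation ideal (helper354)

`ep : A → k` augmentation, `fox i : A → A` with `a = ε(a) + ∑ fox i a * X i`,
`fox i (a b) = a * fox i b + fox i a * ε(b)`.
`P n` : the `n`-th power of the augmentation ideal (`P 0 = ⊤`).
-/

set_option autoImplicit false
set_option linter.unusedSectionVars false

namespace Vale.Agent.P300.GSF

open Submodule

variable {k : Type*} [Field k] {ι : Type*} [Fintype ι] [DecidableEq ι]

/-- the free algebra -/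
abbrev Fr (k : Type*) [Field k] (ι : Type*) := FreeAlgebra k ι

/-- the variable -/
noncomputable def X (i : ι) : Fr k ι := FreeAlgebra.ι k i

/-- the augmentation -/
noncomputable def ep : Fr k ι →ₐ[k] k := FreeAlgebra.algebraMapInv

@[simp] theorem ep_X (i : ι) : ep (X i : Fr k ι) = 0 := by
  simp [ep, X, FreeAlgebra.algebraMapInv]

@[simp] theorem ep_algebraMap (c : k) : ep (algebraMap k (Fr k ι) c) = c := by
  simp [ep]

/-- the matrix form of the Fox derivative -/
noncomputable def foxM (i : ι) : Fr k ι →ₐ[k] Matrix (Fin 2) (Fin 2) (Fr k ι) :=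
  FreeAlgebra.lift k fun j => !![X j, if i = j then 1 else 0; 0, 0]

/-- Fox derivative -/
noncomputable def fox (i : ι) (a : Fr k ι) : Fr k ι := foxM i a 0 1

theorem foxM_eq (i : ι) (a : Fr k ι) :
    foxM i a = !![a, fox i a; 0, algebraMap k _ (ep a)] := by
  have key : foxM i a 0 0 = a ∧ foxM i a 1 0 = 0 ∧ foxM i a 1 1 = algebraMap k _ (ep a) := by
    induction a using FreeAlgebra.induction with
    | grade0 r =>
      rw [AlgHom.commutes]
      refine ⟨?_, ?_, ?_⟩ <;> simp [Matrix.algebraMap_matrix_apply]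
    | grade1 j =>
      have : foxM (k := k) i (FreeAlgebra.ι k j) = !![X j, if i = j then 1 else 0; 0, 0] := by
        simp [foxM]
      rw [this]
      refine ⟨rfl, rfl, ?_⟩
      have h : ep (FreeAlgebra.ι k j) = 0 := ep_X j
      rw [h, map_zero]
      rfl
    | mul a b ha hb =>
      obtain ⟨a1, a2, a3⟩ := ha
      obtain ⟨b1, b2, b3⟩ := hb
      rw [map_mul]
      simp only [Matrix.mul_apply, Fin.sum_univ_two, a1, a2, a3, b1, b2, b3, map_mul, mul_zero,
        zero_mul, add_zero, zero_add]
      exact ⟨trivial, trivial, trivial⟩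
    | add a b ha hb =>
      obtain ⟨a1, a2, a3⟩ := ha
      obtain ⟨b1, b2, b3⟩ := hb
      rw [map_add]
      simp only [Matrix.add_apply, a1, a2, a3, b1, b2, b3, map_add, add_zero]
      exact ⟨trivial, trivial, trivial⟩
  ext p q
  fin_cases p <;> fin_cases q
  · exact key.1
  · rfl
  · exact key.2.1
  · exact key.2.2

theorem fox_add (i : ι) (a b : Fr k ι) : fox i (a + b) = fox i a + fox i b := by
  simp [fox]

theorem fox_smul (i : ι) (c : k) (a : Fr k ι) : fox i (c • a) = c • fox i a := by
  simp [fox]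

/-- the Fox derivative as a linear map -/
noncomputable def foxL (i : ι) : Fr k ι →ₗ[k] Fr k ι where
  toFun := fox i
  map_add' := fox_add i
  map_smul' := fox_smul i

@[simp] theorem foxL_apply (i : ι) (a : Fr k ι) : foxL i a = fox i a := rfl

@[simp] theorem fox_algebraMap (i : ι) (c : k) : fox i (algebraMap k (Fr k ι) c) = 0 := by
  unfold fox
  rw [AlgHom.commutes]
  simp [Matrix.algebraMap_matrix_apply]

theorem fox_X (i j : ι) : fox i (X j : Fr k ι) = if i = j then 1 else 0 := by
  unfold fox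
  have : foxM (k := k) i (X j) = !![X j, if i = j then 1 else 0; 0, 0] := by
    simp [foxM, X]
  rw [this]
  rfl

theorem fox_mul (i : ι) (a b : Fr k ι) :
    fox i (a * b) = a * fox i b + fox i a * algebraMap k _ (ep b) := by
  conv_lhs => unfold fox
  rw [map_mul, foxM_eq i a, foxM_eq i b]
  simp [Matrix.mul_apply, Fin.sum_univ_two]

/-- the fundamental formula -/
theorem eq_sum_fox (a : Fr k ι) : a = algebraMap k _ (ep a) + ∑ i, fox i a * X i := by
  induction a using FreeAlgebra.induction with
  | grade0 r =>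
    simp only [fox_algebraMap, zero_mul, Finset.sum_const_zero, add_zero, ep_algebraMap]
  | grade1 j =>
    have h1 : ∀ i, fox i (FreeAlgebra.ι k j) = if i = j then 1 else 0 := fun i => fox_X i j
    have h2 : ep (FreeAlgebra.ι k j) = 0 := ep_X j
    rw [h2, map_zero, zero_add]
    simp only [h1, ite_mul, one_mul, zero_mul, Finset.sum_ite_eq', Finset.mem_univ, if_true]
    rfl
  | mul a b ha hb =>
    simp only [fox_mul, add_mul, Finset.sum_add_distrib, map_mul]
    have e1 : ∑ i, a * fox i b * X i = a * ∑ i, fox i b * X i := by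
      rw [Finset.mul_sum]; exact Finset.sum_congr rfl fun i _ => mul_assoc _ _ _
    have e2 : ∑ i, fox i a * algebraMap k _ (ep b) * X i =
        (∑ i, fox i a * X i) * algebraMap k _ (ep b) := by
      rw [Finset.sum_mul]
      refine Finset.sum_congr rfl fun i _ => ?_
      rw [mul_assoc, mul_assoc, Algebra.commutes]
    rw [e1, e2]
    have h3 : ∑ i, fox i b * X i = b - algebraMap k _ (ep b) := by
      conv_rhs => rw [hb]
      simp
    have h4 : ∑ i, fox i a * X i = a - algebraMap k _ (ep a) := by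
      conv_rhs => rw [ha]
      simp
    rw [h3, h4, mul_sub, sub_mul]
    abel
  | add a b ha hb =>
    simp only [fox_add, add_mul, Finset.sum_add_distrib, map_add]
    conv_lhs => rw [ha, hb]
    abel

theorem fox_mul_X (i j : ι) (a : Fr k ι) : fox i (a * X j) = if i = j then a else 0 := by
  rw [fox_mul, fox_X, ep_X, map_zero, mul_zero, add_zero]
  split_ifs <;> simp

theorem fox_sum_mul_X (i : ι) (a : ι → Fr k ι) : fox i (∑ j, a j * X j) = a i := by
  have h : fox i (∑ j, a j * X j) = ∑ j, fox i (a j * X j) := map_sum (foxL i) _ _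
  rw [h]
  simp only [fox_mul_X, Finset.sum_ite_eq, Finset.mem_univ, if_true]

/-- the augmentation ideal -/
noncomputable def I : Submodule k (Fr k ι) := LinearMap.ker (ep : Fr k ι →ₐ[k] k).toLinearMap

theorem mem_I {a : Fr k ι} : a ∈ (I : Submodule k (Fr k ι)) ↔ ep a = 0 := by
  unfold I
  rw [LinearMap.mem_ker]
  rfl

theorem X_mem_I (i : ι) : (X i : Fr k ι) ∈ (I : Submodule k (Fr k ι)) := mem_I.2 (ep_X i)

/-- the powers of the augmentation ideal, `P 0 = ⊤` -/
noncomputable def P (k : Type*) [Field k] (ι : Type*) [Fintype ι] [DecidableEq ι] :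
    ℕ → Submodule k (Fr k ι)
  | 0 => ⊤
  | n + 1 => P k ι n * I

theorem P_zero : P k ι 0 = ⊤ := rfl

theorem P_succ (n : ℕ) : P k ι (n + 1) = P k ι n * I := rfl

theorem I_mul_top_le : (I : Submodule k (Fr k ι)) * ⊤ ≤ I := by
  rw [Submodule.mul_le]
  intro a ha b _
  rw [mem_I] at ha ⊢
  rw [map_mul, ha, zero_mul]

theorem top_mul_I_le : ⊤ * (I : Submodule k (Fr k ι)) ≤ I := by
  rw [Submodule.mul_le]
  intro a _ b hb
  rw [mem_I] at hb ⊢
  rw [map_mul, hb, mul_zero]

theorem le_mul_top (S : Submodule k (Fr k ι)) : S ≤ S * ⊤ := fun a ha => by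
  have := Submodule.mul_mem_mul ha (Submodule.mem_top (x := (1 : Fr k ι)))
  rwa [mul_one] at this

theorem le_top_mul (S : Submodule k (Fr k ι)) : S ≤ ⊤ * S := fun a ha => by
  have := Submodule.mul_mem_mul (Submodule.mem_top (x := (1 : Fr k ι))) ha
  rwa [one_mul] at this

theorem P_one : P k ι 1 = I := by
  rw [P_succ, P_zero]
  exact le_antisymm top_mul_I_le (le_top_mul _)

theorem P_mul_top (n : ℕ) : P k ι n * ⊤ ≤ P k ι n := by
  cases n with
  | zero => exact le_top
  | succ n =>
    rw [P_succ, mul_assoc]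
    exact mul_le_mul' le_rfl I_mul_top_le

theorem top_mul_P (n : ℕ) : ⊤ * P k ι n ≤ P k ι n := by
  induction n with
  | zero => exact le_top
  | succ n ih =>
    rw [P_succ, ← mul_assoc]
    exact mul_le_mul' ih le_rfl

theorem P_succ_le (n : ℕ) : P k ι (n + 1) ≤ P k ι n := by
  rw [P_succ]
  exact (mul_le_mul' le_rfl le_top).trans (P_mul_top n)

theorem P_anti : Antitone (P k ι) := antitone_nat_of_succ_le P_succ_le

theorem P_mul (m n : ℕ) : P k ι m * P k ι n ≤ P k ι (m + n) := by
  induction n with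
  | zero => exact P_mul_top m
  | succ n ih =>
    rw [P_succ, ← mul_assoc, ← add_assoc, P_succ]
    exact mul_le_mul' ih le_rfl

theorem mul_mem_P {m n : ℕ} {a b : Fr k ι} (ha : a ∈ P k ι m) (hb : b ∈ P k ι n) :
    a * b ∈ P k ι (m + n) := P_mul m n (Submodule.mul_mem_mul ha hb)

theorem mul_mem_P_left {n : ℕ} (a : Fr k ι) {b : Fr k ι} (hb : b ∈ P k ι n) : a * b ∈ P k ι n :=
  top_mul_P n (Submodule.mul_mem_mul Submodule.mem_top hb)

theorem mul_mem_P_right {n : ℕ} {a : Fr k ι} (b : Fr k ι) (ha : a ∈ P k ι n) : a * b ∈ P k ι n :=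
  P_mul_top n (Submodule.mul_mem_mul ha Submodule.mem_top)

/-- `fox i` lowers the degree by one -/
theorem fox_mem_P (i : ι) {n : ℕ} {a : Fr k ι} (ha : a ∈ P k ι (n + 1)) : fox i a ∈ P k ι n := by
  rw [P_succ] at ha
  induction ha using Submodule.mul_induction_on' with
  | mem_mul_mem a ha b hb =>
    rw [mem_I] at hb
    rw [fox_mul, hb, map_zero, mul_zero, add_zero]
    exact mul_mem_P_right _ ha
  | add a _ b _ h1 h2 => rw [fox_add]; exact add_mem h1 h2

end Vale.Agent.P300.GSF
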