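import Vale.Agent.P300.H354.Fox

/-!
# P300: the Golod-Shafarevich inequality in Vinberg's form (helper354)

`f : κ → A` (`κ` finite) with `f j ∈ P (deg j)`, `1 ≤ deg j`; `Q f n = ⊤ f ⊤ + P n`,
`c n = dim A / Q f n`. Then `1 + d * c n ≤ c (n + 1) + ∑ j, c (n + 1 - deg j)`.
-/

set_option autoImplicit false
set_option linter.unusedSectionVars false

namespace Vale.Agent.P300.GSF

open Submodule

variable {k : Type*} [Field k] {ι : Type*} [Fintype ι] [DecidableEq ι]
variable {κ : Type*} [Fintype κ] {f : κ → Fr k ι} {deg : κ → ℕ}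

/-- the two-sided ideal generated by a subspace -/
noncomputable def J (F : Submodule k (Fr k ι)) : Submodule k (Fr k ι) := ⊤ * F * ⊤

/-- the ideal plus the `n`-th power of the augmentation ideal -/
noncomputable def Q (F : Submodule k (Fr k ι)) (n : ℕ) : Submodule k (Fr k ι) := J F ⊔ P k ι n

theorem J_mul_top (F : Submodule k (Fr k ι)) : J F * ⊤ ≤ J F := by
  unfold J
  rw [mul_assoc]
  exact mul_le_mul' le_rfl le_top

theorem top_mul_J (F : Submodule k (Fr k ι)) : ⊤ * J F ≤ J F := by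
  unfold J
  rw [← mul_assoc, ← mul_assoc]
  exact mul_le_mul' (mul_le_mul' le_top le_rfl) le_rfl

theorem J_mono {F G : Submodule k (Fr k ι)} (h : F ≤ G) : J F ≤ J G :=
  mul_le_mul' (mul_le_mul' le_rfl h) le_rfl

theorem le_J (F : Submodule k (Fr k ι)) : F ≤ J F := (le_top_mul F).trans (le_mul_top _)

theorem mul_mem_J_right {F : Submodule k (Fr k ι)} {a : Fr k ι} (b : Fr k ι) (ha : a ∈ J F) :
    a * b ∈ J F := J_mul_top F (Submodule.mul_mem_mul ha Submodule.mem_top)

theorem mul_mem_J_left {F : Submodule k (Fr k ι)} {a : Fr k ι} (b : Fr k ι) (ha : a ∈ J F) :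
    b * a ∈ J F := top_mul_J F (Submodule.mul_mem_mul Submodule.mem_top ha)

theorem J_le_I {F : Submodule k (Fr k ι)} (h : F ≤ I) : J F ≤ I :=
  (mul_le_mul' ((mul_le_mul' le_rfl h).trans top_mul_I_le) le_rfl).trans I_mul_top_le

theorem top_le_one_sup_I : (⊤ : Submodule k (Fr k ι)) ≤ 1 ⊔ I := fun a _ => by
  have e : a = algebraMap k _ (ep a) + (a - algebraMap k _ (ep a)) := by abel
  rw [e]
  refine add_mem (Submodule.mem_sup_left ?_) (Submodule.mem_sup_right ?_)
  · exact Submodule.mem_one.2 ⟨_, rfl⟩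
  · rw [mem_I, map_sub, ep_algebraMap, sub_self]

/-- `J = ⊤ F + J I` -/
theorem J_le (F : Submodule k (Fr k ι)) : J F ≤ ⊤ * F ⊔ J F * I := by
  have h1 : J F ≤ ⊤ * F * (1 ⊔ I) := mul_le_mul' le_rfl top_le_one_sup_I
  refine h1.trans ?_
  rw [Submodule.mul_sup, mul_one]
  exact sup_le_sup le_rfl (mul_le_mul' (le_mul_top _) le_rfl)

theorem Q_zero (F : Submodule k (Fr k ι)) : Q F 0 = ⊤ := by
  unfold Q; rw [P_zero, sup_top_eq]

theorem Q_le_I {F : Submodule k (Fr k ι)} (h : F ≤ I) {n : ℕ} (hn : 1 ≤ n) : Q F n ≤ I :=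
  sup_le (J_le_I h) ((P_anti hn).trans P_one.le)

theorem mul_mem_Q {F : Submodule k (Fr k ι)} {m n q : ℕ} (h : n ≤ m + q) {a b : Fr k ι}
    (ha : a ∈ Q F m) (hb : b ∈ P k ι q) : a * b ∈ Q F n := by
  obtain ⟨u, hu, v, hv, rfl⟩ := Submodule.mem_sup.1 ha
  rw [add_mul]
  exact add_mem (Submodule.mem_sup_left (mul_mem_J_right b hu))
    (Submodule.mem_sup_right (P_anti h (mul_mem_P hv hb)))

/-- right multiplication by `b ∈ P q` from `A / Q m` to `A / Q n` -/
noncomputable def mulR (F : Submodule k (Fr k ι)) {m n q : ℕ} (h : n ≤ m + q) (b : Fr k ι)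
    (hb : b ∈ P k ι q) : (Fr k ι ⧸ Q F m) →ₗ[k] Fr k ι ⧸ Q F n :=
  Submodule.mapQ _ _ (LinearMap.mulRight k b) fun _ ha => mul_mem_Q h ha hb

theorem mulR_mk (F : Submodule k (Fr k ι)) {m n q : ℕ} (h : n ≤ m + q) (b : Fr k ι)
    (hb : b ∈ P k ι q) (a : Fr k ι) :
    mulR F h b hb (Submodule.Quotient.mk a) = Submodule.Quotient.mk (a * b) := rfl

theorem X_mem_P (i : ι) : (X i : Fr k ι) ∈ P k ι 1 := by rw [P_one]; exact X_mem_I i

/-- `(c, a) ↦ c + ∑ a i * X i` -/
noncomputable def Phi (F : Submodule k (Fr k ι)) (n : ℕ) :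
    (k × (ι → Fr k ι ⧸ Q F n)) →ₗ[k] Fr k ι ⧸ Q F (n + 1) :=
  LinearMap.coprod ((Submodule.mkQ _).comp (Algebra.linearMap k (Fr k ι)))
    (∑ i, (mulR F (le_refl (n + 1)) (X i) (X_mem_P i)).comp (LinearMap.proj i))

theorem Phi_apply (F : Submodule k (Fr k ι)) (n : ℕ) (c : k) (a : ι → Fr k ι) :
    Phi F n (c, fun i => Submodule.Quotient.mk (a i)) =
      Submodule.Quotient.mk (algebraMap k _ c + ∑ i, a i * X i) := by
  unfold Phi
  rw [LinearMap.coprod_apply, LinearMap.sum_apply, Submodule.Quotient.mk_add]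
  congr 1
  have h1 : ∀ i : ι, ((mulR F (le_refl (n + 1)) (X i) (X_mem_P i)).comp (LinearMap.proj i))
      (fun i => (Submodule.Quotient.mk (a i) : Fr k ι ⧸ Q F n)) =
      Submodule.mkQ (Q F (n + 1)) (a i * X i) := fun i => rfl
  simp only [h1]
  rw [← map_sum]
  rfl

theorem Phi_surjective (F : Submodule k (Fr k ι)) (n : ℕ) : Function.Surjective (Phi F n) := by
  intro x
  obtain ⟨a, rfl⟩ := Submodule.Quotient.mk_surjective _ x
  refine ⟨(ep a, fun i => Submodule.Quotient.mk (fox i a)), ?_⟩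
  rw [Phi_apply, ← eq_sum_fox a]

instance finite_quot (F : Submodule k (Fr k ι)) (n : ℕ) : Module.Finite k (Fr k ι ⧸ Q F n) := by
  induction n with
  | zero =>
    have : Subsingleton (Fr k ι ⧸ Q F 0) := by
      rw [Submodule.Quotient.subsingleton_iff]; exact Q_zero F
    infer_instance
  | succ n ih => exact Module.Finite.of_surjective (Phi F n) (Phi_surjective F n)

/-- `c n = dim A / Q F n` -/
noncomputable def cdim (F : Submodule k (Fr k ι)) (n : ℕ) : ℕ := Module.finrank k (Fr k ι ⧸ Q F n)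

theorem cdim_zero (F : Submodule k (Fr k ι)) : cdim F 0 = 0 := by
  unfold cdim
  have : Subsingleton (Fr k ι ⧸ Q F 0) := by
    rw [Submodule.Quotient.subsingleton_iff]; exact Q_zero F
  exact Module.finrank_zero_of_subsingleton

theorem mem_top_mul_span {u : Fr k ι} (hu : u ∈ ⊤ * span k (Set.range f)) :
    ∃ β : κ → Fr k ι, u = ∑ j, β j * f j := by
  classical
  induction hu using Submodule.mul_induction_on' with
  | mem_mul_mem a _ b hb =>
    obtain ⟨c, rfl⟩ := (Submodule.mem_span_range_iff_exists_fun k).1 hb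
    refine ⟨fun j => c j • a, ?_⟩
    rw [Finset.mul_sum]
    exact Finset.sum_congr rfl fun j _ => by rw [mul_smul_comm, smul_mul_assoc]
  | add a _ b _ h1 h2 =>
    obtain ⟨β, rfl⟩ := h1
    obtain ⟨β', rfl⟩ := h2
    exact ⟨fun j => β j + β' j, by simp only [add_mul, Finset.sum_add_distrib]⟩

theorem fox_mem_P' (i : ι) {n : ℕ} (hn : 1 ≤ n) {a : Fr k ι} (ha : a ∈ P k ι n) :
    fox i a ∈ P k ι (n - 1) := by
  obtain ⟨m, rfl⟩ := Nat.exists_eq_add_of_le' hn
  exact fox_mem_P i ha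

theorem fox_mem_of_mul_I {S : Submodule k (Fr k ι)} (hS : S * ⊤ ≤ S) (i : ι) {a : Fr k ι}
    (ha : a ∈ S * I) : fox i a ∈ S := by
  induction ha using Submodule.mul_induction_on' with
  | mem_mul_mem a ha b hb =>
    rw [mem_I] at hb
    rw [fox_mul, hb, map_zero, mul_zero, add_zero]
    exact hS (Submodule.mul_mem_mul ha Submodule.mem_top)
  | add a _ b _ h1 h2 => rw [fox_add]; exact add_mem h1 h2

section main

variable (hdeg : ∀ j, 1 ≤ deg j) (hf : ∀ j, f j ∈ P k ι (deg j))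

/-- `(b j) ↦ (0, ∑ j, b j * fox i (f j))` -/
noncomputable def Psi (n : ℕ) :
    (∀ j, Fr k ι ⧸ Q (span k (Set.range f)) (n + 1 - deg j)) →ₗ[k]
      k × (ι → Fr k ι ⧸ Q (span k (Set.range f)) n) :=
  (LinearMap.inr k k _).comp (LinearMap.pi fun i => ∑ j,
    (mulR _ (show n ≤ (n + 1 - deg j) + (deg j - 1) by have := hdeg j; omega) (fox i (f j))
      (fox_mem_P' i (hdeg j) (hf j))).comp (LinearMap.proj j))

theorem Psi_apply (n : ℕ) (β : κ → Fr k ι) :
    Psi hdeg hf n (fun j => Submodule.Quotient.mk (β j)) =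
      (0, fun i => Submodule.Quotient.mk (∑ j, β j * fox i (f j))) := by
  unfold Psi
  rw [LinearMap.comp_apply]
  refine Prod.ext rfl ?_
  funext i
  show (∑ j, (mulR _ _ (fox i (f j)) (fox_mem_P' i (hdeg j) (hf j))).comp (LinearMap.proj j))
    (fun j => Submodule.Quotient.mk (β j)) = _
  rw [LinearMap.sum_apply]
  have h1 : ∀ j : κ, ((mulR (span k (Set.range f))
      (show n ≤ (n + 1 - deg j) + (deg j - 1) by have := hdeg j; omega) (fox i (f j))
      (fox_mem_P' i (hdeg j) (hf j))).comp (LinearMap.proj j))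
      (fun j => (Submodule.Quotient.mk (β j) :
        Fr k ι ⧸ Q (span k (Set.range f)) (n + 1 - deg j))) =
      Submodule.mkQ (Q (span k (Set.range f)) n) (β j * fox i (f j)) := fun j => rfl
  simp only [h1]
  rw [← map_sum]
  rfl

include hdeg hf in
theorem span_le_I : span k (Set.range f) ≤ I := by
  rw [Submodule.span_le]
  rintro _ ⟨j, rfl⟩
  exact P_one.le (P_anti (hdeg j) (hf j))

theorem ker_Phi_le (n : ℕ) : LinearMap.ker (Phi (span k (Set.range f)) n) ≤
    LinearMap.range (Psi hdeg hf n) := by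
  set F := span k (Set.range f) with hF
  rintro ⟨c, a⟩ hca
  have hsurj : ∀ i, ∃ α : Fr k ι, (Submodule.Quotient.mk α : Fr k ι ⧸ Q F n) = a i :=
    fun i => Submodule.Quotient.mk_surjective _ (a i)
  choose α hα using hsurj
  obtain rfl : (fun i => (Submodule.Quotient.mk (α i) : Fr k ι ⧸ Q F n)) = a := funext hα
  rw [LinearMap.mem_ker, Phi_apply, Submodule.Quotient.mk_eq_zero] at hca
  have hI := Q_le_I (span_le_I hdeg hf) (Nat.le_add_left 1 n) hca
  rw [mem_I, map_add, ep_algebraMap, map_sum] at hI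
  simp only [map_mul, ep_X, mul_zero, Finset.sum_const_zero, add_zero] at hI
  subst hI
  rw [map_zero, zero_add] at hca
  obtain ⟨s, hs, w, hw, hsw⟩ := Submodule.mem_sup.1 hca
  obtain ⟨u, hu, v, hv, rfl⟩ := Submodule.mem_sup.1 (J_le F hs)
  obtain ⟨β, rfl⟩ := mem_top_mul_span hu
  refine ⟨fun j => Submodule.Quotient.mk (β j), ?_⟩
  rw [Psi_apply]
  refine Prod.ext rfl ?_
  funext i
  show Submodule.Quotient.mk (∑ j, β j * fox i (f j)) = Submodule.Quotient.mk (α i)
  rw [Submodule.Quotient.eq]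
  have h1 : α i = fox i (∑ j, β j * f j) + fox i v + fox i w := by
    rw [← fox_add, ← fox_add, hsw, fox_sum_mul_X]
  have h2 : fox i (∑ j, β j * f j) = ∑ j, β j * fox i (f j) := by
    have : fox i (∑ j, β j * f j) = ∑ j, fox i (β j * f j) := map_sum (foxL i) _ _
    rw [this]
    refine Finset.sum_congr rfl fun j _ => ?_
    have h3 : ep (f j) = 0 := mem_I.1 (span_le_I hdeg hf (Submodule.subset_span ⟨j, rfl⟩))
    rw [fox_mul, h3, map_zero, mul_zero, add_zero]
  rw [h1, h2]
  have e : ∑ j, β j * fox i (f j) - (∑ j, β j * fox i (f j) + fox i v + fox i w) =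
      -(fox i v + fox i w) := by abel
  rw [e]
  exact neg_mem (add_mem (Submodule.mem_sup_left (fox_mem_of_mul_I (J_mul_top F) i hv))
    (Submodule.mem_sup_right (fox_mem_P i hw)))

include hdeg hf in
/-- **The Golod-Shafarevich inequality**, Vinberg's form -/
theorem gs_ineq (n : ℕ) : 1 + Fintype.card ι * cdim (span k (Set.range f)) n ≤
    cdim (span k (Set.range f)) (n + 1) + ∑ j, cdim (span k (Set.range f)) (n + 1 - deg j) := by
  set F := span k (Set.range f) with hF
  have h1 := LinearMap.finrank_range_add_finrank_ker (Phi F n)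
  rw [LinearMap.range_eq_top.2 (Phi_surjective F n), finrank_top] at h1
  have h2 : Module.finrank k (k × (ι → Fr k ι ⧸ Q F n)) = 1 + Fintype.card ι * cdim F n := by
    rw [Module.finrank_prod, Module.finrank_self, Module.finrank_pi_fintype]
    simp [cdim]
  have h3 : Module.finrank k (LinearMap.ker (Phi F n)) ≤
      Module.finrank k (LinearMap.range (Psi hdeg hf n)) :=
    Submodule.finrank_mono (ker_Phi_le hdeg hf n)
  have h4 : Module.finrank k (LinearMap.range (Psi hdeg hf n)) ≤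
      ∑ j, cdim F (n + 1 - deg j) := by
    refine (LinearMap.finrank_range_le _).trans ?_
    rw [Module.finrank_pi_fintype]
    rfl
  have h5 : Module.finrank k (Fr k ι ⧸ Q F (n + 1)) = cdim F (n + 1) := rfl
  omega

end main

end Vale.Agent.P300.GSF
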