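import Vale.Agent.P300.H354.GS1

/-!
# P300: Golod-Shafarevich, numerical part and the subspace form (helper354)
-/

set_option autoImplicit false
set_option linter.unusedSectionVars false

namespace Vale.Agent.P300.GSF

open Submodule

/-! ### numerical lemma -/

/-- **numerical part**: the inequality for `n < N` and `c ≤ g` contradict each other if
`1 - d t + ∑ r e t^e ≤ 0` and `d g t^N < 1`. -/
theorem gs_num {d g t S : ℝ} {r : ℕ → ℝ} {c : ℕ → ℝ} {N : ℕ} (ht0 : 0 < t)
    (hd : 0 ≤ d) (hr : ∀ e, 0 ≤ r e) (hS : ∀ M : ℕ, ∑ e ∈ Finset.range M, r e * t ^ e ≤ S)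
    (hneg : 1 - d * t + S ≤ 0) (hN1 : 1 ≤ N) (hN : d * g * t ^ N < 1)
    (hc0 : c 0 = 0) (hc : ∀ n, 0 ≤ c n) (hg : ∀ n ≤ N, c n ≤ g)
    (h : ∀ n < N, 1 + d * c n ≤ c (n + 1) + ∑ e ∈ Finset.range (n + 1), r e * c (n + 1 - e)) :
    False := by
  set C : ℝ := ∑ m ∈ Finset.range (N + 1), c m * t ^ m with hC
  have hC0 : 0 ≤ C := Finset.sum_nonneg fun m _ => mul_nonneg (hc m) (by positivity)
  -- sum of the inequalities
  have h1 : ∑ n ∈ Finset.range N, t ^ (n + 1) * (1 + d * c n) ≤
      ∑ n ∈ Finset.range N, t ^ (n + 1) *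
        (c (n + 1) + ∑ e ∈ Finset.range (n + 1), r e * c (n + 1 - e)) :=
    Finset.sum_le_sum fun n hn => mul_le_mul_of_nonneg_left (h n (Finset.mem_range.1 hn))
      (by positivity)
  -- left side
  have h2 : t + d * t * (C - c N * t ^ N) ≤ ∑ n ∈ Finset.range N, t ^ (n + 1) * (1 + d * c n) := by
    have e1 : ∑ n ∈ Finset.range N, t ^ (n + 1) * (1 + d * c n) =
        ∑ n ∈ Finset.range N, t ^ (n + 1) + d * t * ∑ n ∈ Finset.range N, c n * t ^ n := by
      rw [Finset.mul_sum, ← Finset.sum_add_distrib]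
      exact Finset.sum_congr rfl fun n _ => by ring
    have e2 : ∑ n ∈ Finset.range N, c n * t ^ n = C - c N * t ^ N := by
      rw [hC, Finset.sum_range_succ]; ring
    rw [e1, e2]
    have e3 : t ≤ ∑ n ∈ Finset.range N, t ^ (n + 1) := by
      have := Finset.single_le_sum (f := fun n => t ^ (n + 1)) (s := Finset.range N)
        (fun n _ => by positivity) (Finset.mem_range.2 hN1)
      simpa using this
    linarith
  -- right side
  have h3 : ∑ n ∈ Finset.range N, t ^ (n + 1) * c (n + 1) = C := by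
    rw [hC, Finset.sum_range_succ', hc0]
    simp [mul_comm]
  have h4 : ∑ n ∈ Finset.range N, t ^ (n + 1) * ∑ e ∈ Finset.range (n + 1), r e * c (n + 1 - e) ≤
      S * C := by
    have e1 : ∀ n, t ^ (n + 1) * ∑ e ∈ Finset.range (n + 1), r e * c (n + 1 - e) =
        ∑ e ∈ Finset.range (n + 1), (r e * t ^ e) * (c (n + 1 - e) * t ^ (n + 1 - e)) := by
      intro n
      rw [Finset.mul_sum]
      refine Finset.sum_congr rfl fun e he => ?_
      have : e ≤ n + 1 := (Finset.mem_range.1 he).le
      have e2 : t ^ (n + 1) = t ^ e * t ^ (n + 1 - e) := by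
        rw [← pow_add]; congr 1; omega
      rw [e2]; ring
    have e3 : ∑ n ∈ Finset.range N, t ^ (n + 1) * ∑ e ∈ Finset.range (n + 1), r e * c (n + 1 - e) ≤
        ∑ e ∈ Finset.range N, ∑ m ∈ Finset.range (N + 1), (r e * t ^ e) * (c m * t ^ m) := by
      simp only [e1]
      rw [Finset.sum_sigma', ← Finset.sum_product']
      set s : Finset ((_ : ℕ) × ℕ) := (Finset.range N).sigma fun n => Finset.range (n + 1) with hs
      set φ : ((_ : ℕ) × ℕ) → ℕ × ℕ := fun x => (x.2, x.1 + 1 - x.2) with hφ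
      set F : ℕ × ℕ → ℝ := fun y => (r y.1 * t ^ y.1) * (c y.2 * t ^ y.2) with hF
      have hmem : ∀ x ∈ s, x.1 < N ∧ x.2 < x.1 + 1 := by
        rintro ⟨n, e⟩ hx
        rw [hs, Finset.mem_sigma, Finset.mem_range, Finset.mem_range] at hx
        exact hx
      have hinj : Set.InjOn φ s := by
        rintro ⟨n, e⟩ hx ⟨n', e'⟩ hx' hxy
        have a1 := hmem _ hx
        have a2 := hmem _ hx'
        simp only [hφ, Prod.mk.injEq] at hxy
        obtain ⟨b1, b2⟩ := hxy
        subst b1
        have : n = n' := by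
          have c1 := a1.2
          have c2 := a2.2
          simp only at c1 c2
          omega
        subst this
        rfl
      have e4 : ∑ x ∈ s, (r x.2 * t ^ x.2) * (c (x.1 + 1 - x.2) * t ^ (x.1 + 1 - x.2)) =
          ∑ y ∈ s.image φ, F y := by
        rw [Finset.sum_image hinj]
      rw [e4]
      refine Finset.sum_le_sum_of_subset_of_nonneg ?_ ?_
      · intro y hy
        obtain ⟨x, hx, rfl⟩ := Finset.mem_image.1 hy
        have a1 := hmem _ hx
        rw [Finset.mem_product, Finset.mem_range, Finset.mem_range]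
        simp only [hφ]
        omega
      · intro y _ _
        exact mul_nonneg (mul_nonneg (hr _) (by positivity)) (mul_nonneg (hc _) (by positivity))
    refine e3.trans ?_
    simp only [← Finset.mul_sum, ← hC]
    rw [← Finset.sum_mul]
    exact mul_le_mul_of_nonneg_right (hS N) hC0
  have h5 : ∑ n ∈ Finset.range N, t ^ (n + 1) *
      (c (n + 1) + ∑ e ∈ Finset.range (n + 1), r e * c (n + 1 - e)) =
      C + ∑ n ∈ Finset.range N, t ^ (n + 1) * ∑ e ∈ Finset.range (n + 1), r e * c (n + 1 - e) := by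
    rw [← h3, ← Finset.sum_add_distrib]
    exact Finset.sum_congr rfl fun n _ => by ring
  rw [h5] at h1
  have h6 : C * (1 - d * t + S) ≤ 0 := mul_nonpos_of_nonneg_of_nonpos hC0 hneg
  have h7 : d * t * (c N * t ^ N) ≤ t * (d * g * t ^ N) := by
    have := hg N le_rfl
    have h8 : c N * t ^ N ≤ g * t ^ N := mul_le_mul_of_nonneg_right this (by positivity)
    have h9 := mul_le_mul_of_nonneg_left h8 (show 0 ≤ d * t by positivity)
    calc _ ≤ d * t * (g * t ^ N) := h9
      _ = _ := by ring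
  have h8 : t * (d * g * t ^ N) < t * 1 := mul_lt_mul_of_pos_left hN ht0
  nlinarith

end Vale.Agent.P300.GSF
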