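import Vale.Agent.P300.H354.GS2

/-!
# P300: Golod-Shafarevich for groups (helper354)

`PI n`, `QI F n` : the subspaces `P n`, `Q F n` as two-sided ideals.
`rho x hx : FreeGroup ι →* Bˣ`, `i ↦ 1 + x i` for nilpotent `x i`.
`gs_group` : the group with the relators `R` is infinite if for every `N` the elements
`rho_N w - 1`, `w ∈ R`, of `A / P N` lie in the ideal generated by finitely many elements
`f j ∈ P (deg j)` with `1 - d t + ∑ t^(deg j) ≤ 0`.
-/

set_option autoImplicit false
set_option linter.unusedSectionVars false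

namespace Vale.Agent.P300.GSF

open Submodule

section units

variable {ι : Type*} {B : Type*} [Ring B]

/-- `i ↦ 1 + x i` -/
noncomputable def rho (x : ι → B) (hx : ∀ i, IsNilpotent (x i)) : FreeGroup ι →* Bˣ :=
  FreeGroup.lift fun i => (hx i).isUnit_one_add.unit

@[simp] theorem rho_of (x : ι → B) (hx : ∀ i, IsNilpotent (x i)) (i : ι) :
    ((rho x hx (FreeGroup.of i) : Bˣ) : B) = 1 + x i := by
  unfold rho
  rw [FreeGroup.lift_apply_of]
  rfl

theorem rho_map {B' : Type*} [Ring B'] (ψ : B →+* B') (x : ι → B) (hx : ∀ i, IsNilpotent (x i))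
    (x' : ι → B') (hx' : ∀ i, IsNilpotent (x' i)) (h : ∀ i, ψ (x i) = x' i) (w : FreeGroup ι) :
    ψ (rho x hx w : Bˣ) = (rho x' hx' w : B'ˣ) := by
  have key : (Units.map (ψ : B →* B')).comp (rho x hx) = rho x' hx' := by
    refine FreeGroup.ext_hom _ _ fun i => ?_
    ext
    simp [h i]
  rw [← key]
  rfl

end units

variable {k : Type*} [Field k] {ι : Type*} [Fintype ι] [DecidableEq ι]

/-- a subspace which is an ideal, as a left ideal -/
noncomputable def toIdeal (S : Submodule k (Fr k ι)) (h : ⊤ * S ≤ S) : Ideal (Fr k ι) where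
  carrier := S
  add_mem' := S.add_mem
  zero_mem' := S.zero_mem
  smul_mem' := fun c _ hx => h (Submodule.mul_mem_mul (Submodule.mem_top (x := c)) hx)

/-- `P n` as an ideal -/
noncomputable def PI (k : Type*) [Field k] (ι : Type*) [Fintype ι] [DecidableEq ι] (n : ℕ) :
    Ideal (Fr k ι) := toIdeal (P k ι n) (top_mul_P n)

theorem mem_PI {n : ℕ} {a : Fr k ι} : a ∈ PI k ι n ↔ a ∈ P k ι n := Iff.rfl

instance (n : ℕ) : (PI k ι n).IsTwoSided :=
  ⟨fun _ h => mul_mem_P_right _ h⟩

theorem top_mul_Q (F : Submodule k (Fr k ι)) (n : ℕ) : ⊤ * Q F n ≤ Q F n := by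
  unfold Q
  rw [Submodule.mul_sup]
  exact sup_le_sup (top_mul_J F) (top_mul_P n)

theorem Q_mul_top (F : Submodule k (Fr k ι)) (n : ℕ) : Q F n * ⊤ ≤ Q F n := by
  unfold Q
  rw [Submodule.sup_mul]
  exact sup_le_sup (J_mul_top F) (P_mul_top n)

/-- `Q F n` as an ideal -/
noncomputable def QI (F : Submodule k (Fr k ι)) (n : ℕ) : Ideal (Fr k ι) :=
  toIdeal (Q F n) (top_mul_Q F n)

theorem mem_QI {F : Submodule k (Fr k ι)} {n : ℕ} {a : Fr k ι} : a ∈ QI F n ↔ a ∈ Q F n := Iff.rfl

instance (F : Submodule k (Fr k ι)) (n : ℕ) : (QI F n).IsTwoSided :=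
  ⟨fun _ h => Q_mul_top F n (Submodule.mul_mem_mul h Submodule.mem_top)⟩

theorem pow_mem_P {a : Fr k ι} (ha : a ∈ P k ι 1) (n : ℕ) : a ^ n ∈ P k ι n := by
  induction n with
  | zero => exact Submodule.mem_top
  | succ n ih => rw [pow_succ]; exact mul_mem_P ih ha

theorem X_nil_P (n : ℕ) (i : ι) : IsNilpotent (Ideal.Quotient.mk (PI k ι n) (X i)) :=
  ⟨n, by rw [← map_pow, Ideal.Quotient.eq_zero_iff_mem]; exact pow_mem_P (X_mem_P i) n⟩

theorem X_nil_Q (F : Submodule k (Fr k ι)) (n : ℕ) (i : ι) :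
    IsNilpotent (Ideal.Quotient.mk (QI F n) (X i)) :=
  ⟨n, by
    rw [← map_pow, Ideal.Quotient.eq_zero_iff_mem]
    exact Submodule.mem_sup_right (pow_mem_P (X_mem_P i) n)⟩

/-- the Magnus representation modulo `P N` -/
noncomputable def rhoP (k : Type*) [Field k] (ι : Type*) [Fintype ι] [DecidableEq ι] (N : ℕ) :
    FreeGroup ι →* (Fr k ι ⧸ PI k ι N)ˣ :=
  rho (fun i => Ideal.Quotient.mk (PI k ι N) (X i)) (X_nil_P N)

/-- If the group with relators `R` is finite of order `g`, `c n ≤ g`. -/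
theorem cdim_le_card {F : Submodule k (Fr k ι)} {R : Set (FreeGroup ι)} {N n : ℕ} (hn : n ≤ N)
    (hR : ∀ w ∈ R, ∃ a ∈ J F, Ideal.Quotient.mk (PI k ι N) a =
      ((rhoP k ι N w : (Fr k ι ⧸ PI k ι N)ˣ) : Fr k ι ⧸ PI k ι N) - 1)
    [Finite (FreeGroup ι ⧸ Subgroup.normalClosure R)] :
    cdim F n ≤ Nat.card (FreeGroup ι ⧸ Subgroup.normalClosure R) := by
  classical
  -- the representation modulo `Q F n`
  set ρ : FreeGroup ι →* (Fr k ι ⧸ QI F n)ˣ :=
    rho (fun i => Ideal.Quotient.mk (QI F n) (X i)) (X_nil_Q F n) with hρ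
  have hle : PI k ι N ≤ QI F n := fun a ha =>
    Submodule.mem_sup_right (P_anti hn (mem_PI.1 ha))
  have hmap : ∀ w, Ideal.Quotient.factor hle ((rhoP k ι N w : (Fr k ι ⧸ PI k ι N)ˣ)) =
      ((ρ w : (Fr k ι ⧸ QI F n)ˣ) : Fr k ι ⧸ QI F n) := by
    intro w
    exact rho_map (Ideal.Quotient.factor hle) _ _ _ _
      (fun i => Ideal.Quotient.factor_mk hle (X i)) w
  have hker : Subgroup.normalClosure R ≤ ρ.ker := by
    refine Subgroup.normalClosure_le_normal fun w hw => ?_
    rw [SetLike.mem_coe, MonoidHom.mem_ker]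
    obtain ⟨a, ha, hae⟩ := hR w hw
    have h1 := congrArg (Ideal.Quotient.factor hle) hae
    rw [map_sub, map_one, hmap, Ideal.Quotient.factor_mk] at h1
    have h2 : Ideal.Quotient.mk (QI F n) a = 0 :=
      Ideal.Quotient.eq_zero_iff_mem.2 (Submodule.mem_sup_left ha)
    rw [h2] at h1
    ext
    rw [Units.val_one]
    exact (sub_eq_zero.1 h1.symm)
  set G := FreeGroup ι ⧸ Subgroup.normalClosure R with hG
  let τ : G →* (Fr k ι ⧸ QI F n)ˣ := QuotientGroup.lift _ ρ hker
  have hτ : ∀ w, τ (QuotientGroup.mk' _ w) = ρ w := fun w => QuotientGroup.lift_mk' _ _ w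
  -- the span of the image is everything
  let T : Submodule k (Fr k ι ⧸ QI F n) :=
    span k (Set.range fun g : G => ((τ g : (Fr k ι ⧸ QI F n)ˣ) : Fr k ι ⧸ QI F n))
  have hT1 : (1 : Fr k ι ⧸ QI F n) ∈ T := by
    refine Submodule.subset_span ⟨1, ?_⟩
    simp
  have hTmul : ∀ a ∈ T, ∀ b ∈ T, a * b ∈ T := by
    intro a ha b hb
    have h1 : a * b ∈ T * T := Submodule.mul_mem_mul ha hb
    have h2 : T * T ≤ T := by
      show span k _ * span k _ ≤ _
      rw [Submodule.span_mul_span, Submodule.span_le]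
      rintro _ ⟨_, ⟨g, rfl⟩, _, ⟨g', rfl⟩, rfl⟩
      refine Submodule.subset_span ⟨g * g', ?_⟩
      simp
    exact h2 h1
  have hTX : ∀ i, Ideal.Quotient.mk (QI F n) (X i) ∈ T := by
    intro i
    have h1 : ((τ (QuotientGroup.mk' _ (FreeGroup.of i)) : (Fr k ι ⧸ QI F n)ˣ) :
        Fr k ι ⧸ QI F n) - 1 ∈ T := sub_mem (Submodule.subset_span ⟨_, rfl⟩) hT1
    rw [hτ, hρ, rho_of] at h1
    simpa using h1
  have hTtop : ∀ a : Fr k ι, Ideal.Quotient.mk (QI F n) a ∈ T := by
    intro a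
    induction a using FreeAlgebra.induction with
    | grade0 c =>
      rw [Algebra.algebraMap_eq_smul_one]
      have : Ideal.Quotient.mk (QI F n) (c • (1 : Fr k ι)) =
          c • (1 : Fr k ι ⧸ QI F n) := rfl
      rw [this]
      exact T.smul_mem c hT1
    | grade1 i => exact hTX i
    | mul a b ha hb => rw [map_mul]; exact hTmul _ ha _ hb
    | add a b ha hb => rw [map_add]; exact add_mem ha hb
  have hfin : Fintype G := Fintype.ofFinite G
  -- transfer to the quotient by `Q F n`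
  let q : (G → k) →ₗ[k] Fr k ι ⧸ QI F n := Fintype.linearCombination k
    (fun g : G => ((τ g : (Fr k ι ⧸ QI F n)ˣ) : Fr k ι ⧸ QI F n))
  have hq : ∀ a : Fr k ι, ∃ c : G → k, q c = Ideal.Quotient.mk (QI F n) a := by
    intro a
    obtain ⟨c, hc⟩ := (Submodule.mem_span_range_iff_exists_fun k).1 (hTtop a)
    exact ⟨c, by rw [← hc]; rfl⟩
  let E : (Fr k ι ⧸ QI F n) →ₗ[k] Fr k ι ⧸ Q F n :=
    { toFun := fun z => Quotient.liftOn' z (fun a => (Submodule.Quotient.mk a : Fr k ι ⧸ Q F n))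
        (by
          intro a b hab
          rw [Submodule.Quotient.eq]
          rw [Submodule.quotientRel_def] at hab
          exact hab)
      map_add' := by
        intro z z'
        obtain ⟨a, rfl⟩ := Ideal.Quotient.mk_surjective z
        obtain ⟨b, rfl⟩ := Ideal.Quotient.mk_surjective z'
        rfl
      map_smul' := by
        intro c z
        obtain ⟨a, rfl⟩ := Ideal.Quotient.mk_surjective z
        rfl }
  have hsurj : Function.Surjective (E.comp q) := by
    intro z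
    obtain ⟨a, rfl⟩ := Submodule.Quotient.mk_surjective _ z
    obtain ⟨c, hc⟩ := hq a
    refine ⟨c, ?_⟩
    rw [LinearMap.comp_apply, hc]
    rfl
  have h1 := LinearMap.finrank_le_finrank_of_surjective hsurj
  rw [Module.finrank_fintype_fun_eq_card] at h1
  rw [Nat.card_eq_fintype_card]
  exact h1

/-- **Golod-Shafarevich**: the group with the relators `R` is infinite. -/
theorem gs_group {t : ℝ} (ht0 : 0 < t) (ht1 : t < 1) (R : Set (FreeGroup ι))
    (h : ∀ N : ℕ, ∃ (κ : Type) (_ : Fintype κ) (f : κ → Fr k ι) (deg : κ → ℕ),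
      (∀ j, 1 ≤ deg j) ∧ (∀ j, f j ∈ P k ι (deg j)) ∧
      1 - Fintype.card ι * t + ∑ j, t ^ deg j ≤ 0 ∧
      ∀ w ∈ R, ∃ a ∈ J (span k (Set.range f)), Ideal.Quotient.mk (PI k ι N) a =
        ((rhoP k ι N w : (Fr k ι ⧸ PI k ι N)ˣ) : Fr k ι ⧸ PI k ι N) - 1) :
    Infinite (FreeGroup ι ⧸ Subgroup.normalClosure R) := by
  classical
  by_contra hfin
  rw [not_infinite_iff_finite] at hfin
  set g : ℝ := (Nat.card (FreeGroup ι ⧸ Subgroup.normalClosure R) : ℝ) with hg
  have hg0 : 0 ≤ g := Nat.cast_nonneg _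
  obtain ⟨N, hN1, hN⟩ : ∃ N : ℕ, 1 ≤ N ∧ (Fintype.card ι : ℝ) * g * t ^ N < 1 := by
    have h1 : Filter.Tendsto (fun N : ℕ => (Fintype.card ι : ℝ) * g * t ^ N) Filter.atTop
        (nhds ((Fintype.card ι : ℝ) * g * 0)) :=
      (tendsto_pow_atTop_nhds_zero_of_lt_one ht0.le ht1).const_mul _
    rw [mul_zero] at h1
    have h2 := (h1.eventually (gt_mem_nhds one_pos)).and (Filter.eventually_ge_atTop 1)
    obtain ⟨N, a, b⟩ := h2.exists
    exact ⟨N, b, a⟩
  obtain ⟨κ, _, f, deg, hdeg, hf, hneg, hR⟩ := h N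
  set F := span k (Set.range f) with hF
  let r : ℕ → ℝ := fun e => ((Finset.univ.filter fun j => deg j = e).card : ℝ)
  have hr0 : ∀ e, 0 ≤ r e := fun e => Nat.cast_nonneg _
  have hrS : ∀ M : ℕ, ∑ e ∈ Finset.range M, r e * t ^ e ≤ ∑ j, t ^ deg j := by
    intro M
    have e1 : ∀ e, r e * t ^ e = ∑ j ∈ Finset.univ.filter (fun j => deg j = e), t ^ deg j := by
      intro e
      have : ∀ j ∈ Finset.univ.filter (fun j => deg j = e), t ^ deg j = t ^ e := by
        intro j hj; rw [(Finset.mem_filter.1 hj).2]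
      rw [Finset.sum_congr rfl this, Finset.sum_const, nsmul_eq_mul]
    simp only [e1]
    rw [← Finset.sum_biUnion]
    · exact Finset.sum_le_sum_of_subset_of_nonneg (Finset.subset_univ _)
        fun _ _ _ => by positivity
    · intro a _ b _ hab
      rw [Function.onFun, Finset.disjoint_left]
      intro j hj hj'
      exact hab ((Finset.mem_filter.1 hj).2.symm.trans (Finset.mem_filter.1 hj').2)
  refine gs_num (d := Fintype.card ι) (g := g) (t := t) (S := ∑ j, t ^ deg j) (r := r)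
    (c := fun n => (cdim F n : ℝ)) (N := N) ht0 (Nat.cast_nonneg _) hr0 hrS hneg hN1 hN ?_
    (fun n => Nat.cast_nonneg _) ?_ ?_
  · show ((cdim F 0 : ℕ) : ℝ) = 0
    rw [cdim_zero]; norm_num
  · intro n hn
    have := cdim_le_card (F := F) hn hR
    show ((cdim F n : ℕ) : ℝ) ≤ g
    rw [hg]
    exact_mod_cast this
  · intro n _
    have h1 := gs_ineq hdeg hf n
    have h2 : ∑ j, cdim F (n + 1 - deg j) ≤
        ∑ e ∈ Finset.range (n + 1),
          (Finset.univ.filter fun j => deg j = e).card * cdim F (n + 1 - e) := by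
      have e1 : ∀ e, (Finset.univ.filter fun j => deg j = e).card * cdim F (n + 1 - e) =
          ∑ j ∈ Finset.univ.filter (fun j => deg j = e), cdim F (n + 1 - deg j) := by
        intro e
        have : ∀ j ∈ Finset.univ.filter (fun j => deg j = e),
            cdim F (n + 1 - deg j) = cdim F (n + 1 - e) := by
          intro j hj; rw [(Finset.mem_filter.1 hj).2]
        rw [Finset.sum_congr rfl this, Finset.sum_const, smul_eq_mul]
      simp only [e1]
      rw [← Finset.sum_biUnion]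
      · refine (Finset.sum_subset (Finset.subset_univ _) fun j _ hj => ?_).ge
        have h3 : n + 1 ≤ deg j := by
          by_contra h4
          apply hj
          rw [Finset.mem_biUnion]
          exact ⟨deg j, Finset.mem_range.2 (by omega), Finset.mem_filter.2 ⟨Finset.mem_univ _, rfl⟩⟩
        rw [Nat.sub_eq_zero_of_le h3, cdim_zero]
      · intro a _ b _ hab
        rw [Function.onFun, Finset.disjoint_left]
        intro j hj hj'
        exact hab ((Finset.mem_filter.1 hj).2.symm.trans (Finset.mem_filter.1 hj').2)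
    have h3 := h1.trans (Nat.add_le_add_left h2 _)
    have h4 : ((1 + Fintype.card ι * cdim F n : ℕ) : ℝ) ≤
        ((cdim F (n + 1) + ∑ e ∈ Finset.range (n + 1),
          (Finset.univ.filter fun j => deg j = e).card * cdim F (n + 1 - e) : ℕ) : ℝ) :=
      Nat.cast_le.2 h3
    push_cast at h4
    exact h4

end Vale.Agent.P300.GSF
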