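import Vale.Agent.P300.H354.GS3

/-!
# P300: Golod-Shafarevich, spaces of relators (helper354)

`exists_family` : a subspace `F ≤ I` with `dim gr_e F ≤ r e` is spanned, modulo `P N`, by a family
`f j ∈ F ⊓ P (deg j)` with `∑ t^(deg j) ≤ ∑ r e t^e`.
-/

set_option autoImplicit false
set_option linter.unusedSectionVars false

namespace Vale.Agent.P300.GSF

open Submodule

variable {k : Type*} [Field k] {ι : Type*} [Fintype ι] [DecidableEq ι]

theorem Q_bot (n : ℕ) : Q (⊥ : Submodule k (Fr k ι)) n = P k ι n := by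
  unfold Q J
  rw [Submodule.mul_bot, Submodule.bot_mul, bot_sup_eq]

instance finite_quot_P (n : ℕ) : Module.Finite k (Fr k ι ⧸ P k ι n) := by
  rw [← Q_bot n]
  infer_instance

/-- a spanning family of a finite dimensional space -/
theorem exists_span_fin {V : Type*} [AddCommGroup V] [Module k V] [Module.Finite k V] {m : ℕ}
    (h : Module.finrank k V ≤ m) : ∃ v : Fin m → V, span k (Set.range v) = ⊤ := by
  let b := Module.finBasis k V
  refine ⟨fun i => if hi : i.1 < Module.finrank k V then b ⟨i.1, hi⟩ else 0, ?_⟩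
  rw [eq_top_iff, ← b.span_eq, Submodule.span_le]
  rintro _ ⟨i, rfl⟩
  refine Submodule.subset_span ⟨⟨i.1, i.2.trans_le h⟩, ?_⟩
  simp

/-- dimension of the `e`-th graded piece of `F` -/
noncomputable def grd (F : Submodule k (Fr k ι)) (e : ℕ) : ℕ :=
  Module.finrank k (Submodule.map (P k ι (e + 1)).mkQ (F ⊓ P k ι e))

theorem exists_gr (F : Submodule k (Fr k ι)) (e : ℕ) :
    ∃ f : Fin (grd F e) → Fr k ι, (∀ i, f i ∈ F ∧ f i ∈ P k ι e) ∧
      F ⊓ P k ι e ≤ span k (Set.range f) ⊔ (F ⊓ P k ι (e + 1)) := by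
  obtain ⟨v, hv⟩ := exists_span_fin (k := k)
    (V := Submodule.map (P k ι (e + 1)).mkQ (F ⊓ P k ι e)) (m := grd F e) le_rfl
  have h1 : ∀ i, ∃ a ∈ F ⊓ P k ι e, (P k ι (e + 1)).mkQ a = (v i : Fr k ι ⧸ P k ι (e + 1)) :=
    fun i => (v i).2
  choose f hf hfv using h1
  refine ⟨f, hf, ?_⟩
  intro a ha
  have h2 : (⟨(P k ι (e + 1)).mkQ a, ⟨a, ha, rfl⟩⟩ :
      Submodule.map (P k ι (e + 1)).mkQ (F ⊓ P k ι e)) ∈ span k (Set.range v) := by
    rw [hv]; exact Submodule.mem_top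
  obtain ⟨c, hc⟩ := (Submodule.mem_span_range_iff_exists_fun k).1 h2
  have h3 := congrArg Subtype.val hc
  rw [AddSubmonoidClass.coe_finsetSum] at h3
  simp only [SetLike.val_smul, ← hfv] at h3
  have h4 : ∑ i, c i • f i - a ∈ P k ι (e + 1) := by
    have h5 : (P k ι (e + 1)).mkQ (∑ i, c i • f i) = (P k ι (e + 1)).mkQ a := by
      rw [map_sum]; simpa only [map_smul] using h3
    rw [← sub_eq_zero, ← map_sub, Submodule.mkQ_apply, Submodule.Quotient.mk_eq_zero] at h5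
    exact h5
  have h5 : ∑ i, c i • f i ∈ span k (Set.range f) :=
    Submodule.sum_mem _ fun i _ => Submodule.smul_mem _ _ (Submodule.subset_span ⟨i, rfl⟩)
  have h6 : ∑ i, c i • f i ∈ F := Submodule.sum_mem _ fun i _ => F.smul_mem _ (hf i).1
  have e1 : a = ∑ i, c i • f i - (∑ i, c i • f i - a) := by abel
  rw [e1]
  exact sub_mem (Submodule.mem_sup_left h5) (Submodule.mem_sup_right ⟨sub_mem h6 ha.1, h4⟩)

/-- **adapted families** -/
theorem exists_family (F : Submodule k (Fr k ι)) (hF : F ≤ I) (N : ℕ) :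
    ∃ (κ : Type) (_ : Fintype κ) (f : κ → Fr k ι) (deg : κ → ℕ),
      (∀ j, 1 ≤ deg j) ∧ (∀ j, f j ∈ P k ι (deg j)) ∧ (∀ j, f j ∈ F) ∧
      F ≤ span k (Set.range f) ⊔ P k ι (N + 1) ∧
      ∀ t : ℝ, ∑ j, t ^ deg j = ∑ e ∈ Finset.range N, (grd F (e + 1) : ℝ) * t ^ (e + 1) := by
  choose f hf hspan using exists_gr F
  refine ⟨Σ e : Fin N, Fin (grd F (e.1 + 1)), inferInstance, fun j => f (j.1.1 + 1) j.2,
    fun j => j.1.1 + 1, fun j => Nat.le_add_left _ _, fun j => (hf _ _).2, fun j => (hf _ _).1,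
    ?_, ?_⟩
  · set S := span k (Set.range fun j : Σ e : Fin N, Fin (grd F (e.1 + 1)) => f (j.1.1 + 1) j.2)
    have key : ∀ m ≤ N, F ≤ S ⊔ (F ⊓ P k ι (m + 1)) := by
      intro m
      induction m with
      | zero =>
        intro _
        have : F ≤ F ⊓ P k ι (0 + 1) := le_inf le_rfl (hF.trans P_one.ge)
        exact this.trans le_sup_right
      | succ m ih =>
        intro hm
        refine (ih (by omega)).trans (sup_le le_sup_left ?_)
        refine (hspan (m + 1)).trans (sup_le ?_ le_sup_right)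
        refine le_trans ?_ le_sup_left
        rw [Submodule.span_le]
        rintro _ ⟨i, rfl⟩
        exact Submodule.subset_span ⟨⟨⟨m, by omega⟩, i⟩, rfl⟩
    exact (key N le_rfl).trans (sup_le_sup le_rfl inf_le_right)
  · intro t
    rw [Fintype.sum_sigma]
    simp only [Finset.sum_const, Finset.card_univ, Fintype.card_fin, nsmul_eq_mul]
    exact (Finset.sum_range fun e => (grd F (e + 1) : ℝ) * t ^ (e + 1)).symm

/-- union of two families -/
theorem union_family {F G H : Submodule k (Fr k ι)} (N : ℕ)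
    {κ₁ κ₂ : Type} [Fintype κ₁] [Fintype κ₂] {f₁ : κ₁ → Fr k ι} {f₂ : κ₂ → Fr k ι}
    {d₁ : κ₁ → ℕ} {d₂ : κ₂ → ℕ}
    (h₁ : (∀ j, 1 ≤ d₁ j) ∧ ∀ j, f₁ j ∈ P k ι (d₁ j))
    (h₂ : (∀ j, 1 ≤ d₂ j) ∧ ∀ j, f₂ j ∈ P k ι (d₂ j))
    (hF : F ≤ span k (Set.range f₁) ⊔ P k ι N) (hG : G ≤ span k (Set.range f₂) ⊔ P k ι N)
    (hH : H ≤ F ⊔ G) :
    ∃ (κ : Type) (_ : Fintype κ) (f : κ → Fr k ι) (deg : κ → ℕ),
      (∀ j, 1 ≤ deg j) ∧ (∀ j, f j ∈ P k ι (deg j)) ∧ H ≤ span k (Set.range f) ⊔ P k ι N ∧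
      ∀ t : ℝ, ∑ j, t ^ deg j = ∑ j, t ^ d₁ j + ∑ j, t ^ d₂ j := by
  refine ⟨κ₁ ⊕ κ₂, inferInstance, Sum.elim f₁ f₂, Sum.elim d₁ d₂, ?_, ?_, ?_, ?_⟩
  · rintro (j | j)
    · exact h₁.1 j
    · exact h₂.1 j
  · rintro (j | j)
    · exact h₁.2 j
    · exact h₂.2 j
  · rw [Set.Sum.elim_range, Submodule.span_union]
    refine hH.trans (sup_le (hF.trans ?_) (hG.trans ?_))
    · exact sup_le_sup le_sup_left le_rfl
    · exact sup_le_sup le_sup_right le_rfl
  · intro t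
    rw [Fintype.sum_sum_type]
    rfl

/-- **Golod-Shafarevich for groups**, spaces of relators: `rho_N w - 1` lies in the image of a space
which is spanned modulo `P N` by a family of small weight. -/
theorem gs_group' {t : ℝ} (ht0 : 0 < t) (ht1 : t < 1) (R : Set (FreeGroup ι))
    (h : ∀ N : ℕ, ∃ (κ : Type) (_ : Fintype κ) (f : κ → Fr k ι) (deg : κ → ℕ),
      (∀ j, 1 ≤ deg j) ∧ (∀ j, f j ∈ P k ι (deg j)) ∧
      1 - Fintype.card ι * t + ∑ j, t ^ deg j ≤ 0 ∧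
      ∀ w ∈ R, ∃ a ∈ J (span k (Set.range f)) ⊔ P k ι N, Ideal.Quotient.mk (PI k ι N) a =
        ((rhoP k ι N w : (Fr k ι ⧸ PI k ι N)ˣ) : Fr k ι ⧸ PI k ι N) - 1) :
    Infinite (FreeGroup ι ⧸ Subgroup.normalClosure R) := by
  refine gs_group (k := k) ht0 ht1 R fun N => ?_
  obtain ⟨κ, i, f, deg, h1, h2, h3, h4⟩ := h N
  refine ⟨κ, i, f, deg, h1, h2, h3, fun w hw => ?_⟩
  obtain ⟨a, ha, he⟩ := h4 w hw
  obtain ⟨u, hu, v, hv, rfl⟩ := Submodule.mem_sup.1 ha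
  refine ⟨u, hu, ?_⟩
  rw [← he, map_add]
  have : Ideal.Quotient.mk (PI k ι N) v = 0 := Ideal.Quotient.eq_zero_iff_mem.2 hv
  rw [this, add_zero]

end Vale.Agent.P300.GSF
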