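import Mathlib

/-!
# P300, block [CURVE]: gluing an entire curve from one slit piece and `m` sector pieces (helper354)

`slit m = {w | w ^ m ∉ [1, ∞)}`, `sec m = {w ≠ 0 | |arg w| < π / m}`, `zt m = exp (2 π i / m)`.
`A s` lives on `slit m`, `G s` on `sec m`, `A s = G s` on the intersection, `A s (zt w) = A (c s) w`,
`c ^ m = 1`. Then `glue` is `A s` on `slit m` and `G (c ^ k s) (zt ^ (-k) w)` on the `k`-th sector.
-/

set_option autoImplicit false

open Set Filter Topology Complex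

namespace Vale.Agent.P300.Curve

/-- `exp (2 π i / m)` -/
noncomputable def zt (m : ℕ) : ℂ := exp (2 * Real.pi * I / m)

/-- `w ^ m ∉ [1, ∞)` -/
def slit (m : ℕ) : Set ℂ := {w | ¬ ((w ^ m).im = 0 ∧ 1 ≤ (w ^ m).re)}

/-- the sector -/
def sec (m : ℕ) : Set ℂ := {w | w ≠ 0 ∧ |arg w| < Real.pi / m}

/-- the principal root -/
noncomputable def root (m : ℕ) (z : ℂ) : ℂ := exp (log z / m)

variable {m : ℕ}

theorem zt_prim (hm : m ≠ 0) : IsPrimitiveRoot (zt m) m := Complex.isPrimitiveRoot_exp m hm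

theorem zt_ne (m : ℕ) : zt m ≠ 0 := exp_ne_zero _

theorem zt_pow (hm : m ≠ 0) : zt m ^ m = 1 := (zt_prim hm).pow_eq_one

theorem isOpen_slit (m : ℕ) : IsOpen (slit m) := by
  have h : IsClosed {u : ℂ | u.im = 0 ∧ 1 ≤ u.re} :=
    (isClosed_eq continuous_im continuous_const).inter (isClosed_le continuous_const continuous_re)
  have h2 : IsClosed {w : ℂ | (w ^ m).im = 0 ∧ 1 ≤ (w ^ m).re} := h.preimage (continuous_pow m)
  exact h2.isOpen_compl

theorem pi_div_le (hm : m ≠ 0) : Real.pi / m ≤ Real.pi := by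
  have h1 : (1:ℝ) ≤ m := by exact_mod_cast Nat.one_le_iff_ne_zero.2 hm
  exact div_le_self Real.pi_pos.le h1

theorem sec_subset (hm : m ≠ 0) : sec m ⊆ slitPlane := by
  rintro w ⟨h0, h1⟩
  rw [mem_slitPlane_iff_arg]
  refine ⟨fun h => ?_, h0⟩
  rw [h, abs_of_pos Real.pi_pos] at h1
  exact absurd (pi_div_le hm) (not_le.2 h1)

theorem isOpen_sec (hm : m ≠ 0) : IsOpen (sec m) := by
  have e : sec m = slitPlane ∩ arg ⁻¹' {x | |x| < Real.pi / m} := by
    ext w
    constructor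
    · intro h; exact ⟨sec_subset hm h, h.2⟩
    · rintro ⟨h1, h2⟩; exact ⟨slitPlane_ne_zero h1, h2⟩
  rw [e]
  refine ContinuousOn.isOpen_inter_preimage ?_ isOpen_slitPlane ?_
  · intro w hw
    exact (continuousAt_arg hw).continuousWithinAt
  · exact isOpen_lt continuous_abs continuous_const

theorem arg_exp_of {x : ℂ} (h1 : -Real.pi < x.im) (h2 : x.im ≤ Real.pi) : arg (exp x) = x.im := by
  rw [← log_im, log_exp h1 h2]

theorem root_mem (hm : m ≠ 0) {z : ℂ} (hz : z ∈ slitPlane) : root m z ∈ sec m := by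
  have hm' : (0:ℝ) < m := by exact_mod_cast Nat.pos_of_ne_zero hm
  have h1 : (log z / m).im = arg z / m := by
    rw [div_natCast_im, log_im]
  have h2 : |arg z| < Real.pi := by
    rw [abs_lt]
    have := mem_slitPlane_iff_arg.1 hz
    exact ⟨neg_pi_lt_arg z, lt_of_le_of_ne (arg_le_pi z) this.1⟩
  have h3 : |arg z / m| < Real.pi / m := by
    rw [abs_div, abs_of_pos hm']
    exact div_lt_div_of_pos_right h2 hm'
  have h4 := abs_lt.1 (h3.trans_le (pi_div_le hm))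
  refine ⟨exp_ne_zero _, ?_⟩
  unfold root
  rw [arg_exp_of (by rw [h1]; exact h4.1) (by rw [h1]; exact h4.2.le), h1]
  exact h3

theorem root_pow (hm : m ≠ 0) {z : ℂ} (hz : z ≠ 0) : root m z ^ m = z := by
  have hm' : (m : ℂ) ≠ 0 := by exact_mod_cast hm
  unfold root
  rw [← exp_nat_mul, mul_div_cancel₀ _ hm', exp_log hz]

theorem log_pow_sec (hm : m ≠ 0) {w : ℂ} (hw : w ∈ sec m) : log (w ^ m) = m * log w := by
  have hm' : (0:ℝ) < m := by exact_mod_cast Nat.pos_of_ne_zero hm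
  have h1 : ((m : ℂ) * log w).im = m * arg w := by
    simp [log_im]
  have h2 : |(m : ℝ) * arg w| < Real.pi := by
    rw [abs_mul, abs_of_pos hm']
    have := mul_lt_mul_of_pos_left hw.2 hm'
    rwa [mul_div_cancel₀ _ hm'.ne'] at this
  have h3 := abs_lt.1 h2
  have h4 : w ^ m = exp (m * log w) := by
    rw [exp_nat_mul, exp_log hw.1]
  rw [h4, log_exp (by rw [h1]; exact h3.1) (by rw [h1]; exact h3.2.le)]

theorem root_of_sec (hm : m ≠ 0) {w : ℂ} (hw : w ∈ sec m) : root m (w ^ m) = w := by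
  have hm' : (m : ℂ) ≠ 0 := by exact_mod_cast hm
  unfold root
  rw [log_pow_sec hm hw, mul_div_cancel_left₀ _ hm', exp_log hw.1]

theorem pow_mem_of_sec (hm : m ≠ 0) {w : ℂ} (hw : w ∈ sec m) : w ^ m ∈ slitPlane := by
  have hm' : (0:ℝ) < m := by exact_mod_cast Nat.pos_of_ne_zero hm
  rw [mem_slitPlane_iff_arg]
  refine ⟨?_, pow_ne_zero _ hw.1⟩
  rw [← log_im, log_pow_sec hm hw]
  have h1 : ((m : ℂ) * log w).im = m * arg w := by simp [log_im]
  rw [h1]
  have h2 : |(m : ℝ) * arg w| < Real.pi := by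
    rw [abs_mul, abs_of_pos hm']
    have := mul_lt_mul_of_pos_left hw.2 hm'
    rwa [mul_div_cancel₀ _ hm'.ne'] at this
  exact (abs_lt.1 h2).2.ne

theorem inv_mem_sec (hm : m ≠ 0) {w : ℂ} (hw : w ∈ sec m) : w⁻¹ ∈ sec m := by
  refine ⟨inv_ne_zero hw.1, ?_⟩
  rw [arg_inv]
  have := (mem_slitPlane_iff_arg.1 (sec_subset hm hw)).1
  rw [if_neg this, abs_neg]
  exact hw.2

theorem zpow_zt_pow (hm : m ≠ 0) (k : ℤ) (w : ℂ) : (zt m ^ k * w) ^ m = w ^ m := by
  rw [mul_pow, ← zpow_natCast, ← zpow_mul, mul_comm k, zpow_mul, zpow_natCast, zt_pow hm, one_zpow,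
    one_mul]

/-- every point with `w ^ m ∈ slitPlane` lies in a sector -/
theorem exists_sector (hm : m ≠ 0) {w : ℂ} (hw : w ^ m ∈ slitPlane) :
    ∃ k : ℤ, zt m ^ (-k) * w ∈ sec m := by
  have h0 : w ^ m ≠ 0 := slitPlane_ne_zero hw
  have hr := root_pow hm h0
  have hw0 : w ≠ 0 := fun h => h0 (by rw [h, zero_pow hm])
  have hr0 : root m (w ^ m) ≠ 0 := exp_ne_zero _
  have h1 : (w / root m (w ^ m)) ^ m = 1 := by rw [div_pow, hr, div_self h0]
  have : NeZero m := ⟨hm⟩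
  obtain ⟨i, -, hi⟩ := (zt_prim hm).eq_pow_of_pow_eq_one h1
  refine ⟨i, ?_⟩
  have h2 : zt m ^ (-(i:ℤ)) * w = root m (w ^ m) := by
    rw [zpow_neg, zpow_natCast, hi]
    field_simp
  rw [h2]
  exact root_mem hm hw

/-- the sector is unique modulo `m` -/
theorem sector_unique (hm : m ≠ 0) {w : ℂ} {k k' : ℤ} (h : zt m ^ (-k) * w ∈ sec m)
    (h' : zt m ^ (-k') * w ∈ sec m) : zt m ^ k = zt m ^ k' ∧ (m : ℤ) ∣ k - k' := by
  have e1 := root_of_sec hm h
  have e2 := root_of_sec hm h'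
  rw [zpow_zt_pow hm] at e1 e2
  have e3 : zt m ^ (-k) * w = zt m ^ (-k') * w := e1.symm.trans e2
  have hw : w ≠ 0 := by
    rintro rfl
    exact h.1 (mul_zero _)
  have e4 : zt m ^ (-k) = zt m ^ (-k') := mul_right_cancel₀ hw e3
  have e5 : zt m ^ k = zt m ^ k' := by
    rw [zpow_neg, zpow_neg] at e4
    exact inv_injective e4
  refine ⟨e5, ?_⟩
  have e6 : zt m ^ (k - k') = 1 := by
    rw [zpow_sub₀ (zt_ne m), e5, div_self (zpow_ne_zero _ (zt_ne m))]
  exact ((zt_prim hm).zpow_eq_one_iff_dvd _).1 e6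

theorem slit_or_sector (hm : m ≠ 0) (w : ℂ) : w ∈ slit m ∨ ∃ k : ℤ, zt m ^ (-k) * w ∈ sec m := by
  by_cases h : w ∈ slit m
  · exact Or.inl h
  · right
    refine exists_sector hm ?_
    have h1 : (w ^ m).im = 0 ∧ 1 ≤ (w ^ m).re := not_not.1 h
    rw [mem_slitPlane_iff]
    exact Or.inl (by linarith [h1.2])

theorem zt_mul_slit (hm : m ≠ 0) (k : ℤ) {w : ℂ} : zt m ^ k * w ∈ slit m ↔ w ∈ slit m := by
  unfold slit
  simp only [Set.mem_ofPred_eq, zpow_zt_pow hm]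

section glue

variable {Z S : Type*} (A G : S → ℂ → Z) (c : Equiv.Perm S)

open Classical in
/-- the glued curve -/
noncomputable def glue (m : ℕ) (s : S) (w : ℂ) : Z :=
  if w ∈ slit m then A s w else
    if h : ∃ k : ℤ, zt m ^ (-k) * w ∈ sec m then G ((c ^ h.choose) s) (zt m ^ (-h.choose) * w)
    else A s w

variable {A G c}

theorem glue_of_slit {s : S} {w : ℂ} (hw : w ∈ slit m) : glue A G c m s w = A s w := if_pos hw

theorem rot_zpow (hm : m ≠ 0) (hrot : ∀ s, ∀ w ∈ slit m, A s (zt m * w) = A (c s) w) (k : ℤ)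
    {s : S} {w : ℂ} (hw : w ∈ slit m) : A s (zt m ^ k * w) = A ((c ^ k) s) w := by
  have hnat : ∀ n : ℕ, ∀ s, ∀ w ∈ slit m, A s (zt m ^ n * w) = A ((c ^ n) s) w := by
    intro n
    induction n with
    | zero => intro s w _; simp
    | succ n ih =>
      intro s w hw
      rw [pow_succ' (zt m), mul_assoc]
      have h1 : zt m ^ n * w ∈ slit m := by
        have := (zt_mul_slit (w := w) hm (n : ℤ)).2 hw
        rwa [zpow_natCast] at this
      rw [hrot s _ h1, ih _ w hw, pow_succ, Equiv.Perm.mul_apply]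
  obtain ⟨n, rfl | rfl⟩ := k.eq_nat_or_neg
  · rw [zpow_natCast, zpow_natCast]
    exact hnat n s w hw
  · have h1 : zt m ^ (-(n:ℤ)) * w ∈ slit m := (zt_mul_slit hm _).2 hw
    have h2 := hnat n ((c ^ (-(n:ℤ))) s) _ h1
    have h3 : zt m ^ n * (zt m ^ (-(n:ℤ)) * w) = w := by
      rw [← mul_assoc, zpow_neg, zpow_natCast, mul_inv_cancel₀ (pow_ne_zero _ (zt_ne m)), one_mul]
    have h4 : (c ^ n) ((c ^ (-(n:ℤ))) s) = s := by
      rw [← zpow_natCast, ← Equiv.Perm.mul_apply, ← zpow_add, add_neg_cancel, zpow_zero]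
      rfl
    rw [h3, h4] at h2
    exact h2.symm

theorem perm_zpow_eq {s : S} (hc : ∀ s, (c ^ m) s = s) {k k' : ℤ} (h : (m : ℤ) ∣ k - k') :
    (c ^ k) s = (c ^ k') s := by
  obtain ⟨j, hj⟩ := h
  have h1 : c ^ m = 1 := Equiv.ext hc
  have h2 : k = k' + m * j := by linarith
  rw [h2, zpow_add, zpow_mul, zpow_natCast, h1, one_zpow, mul_one]

/-- the value on the `k`-th sector -/
theorem glue_of_sector (hm : m ≠ 0) (hrot : ∀ s, ∀ w ∈ slit m, A s (zt m * w) = A (c s) w)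
    (hAG : ∀ s, ∀ w ∈ slit m, w ∈ sec m → A s w = G s w) (hc : ∀ s, (c ^ m) s = s)
    (k : ℤ) {s : S} {w : ℂ} (hw : zt m ^ (-k) * w ∈ sec m) :
    glue A G c m s w = G ((c ^ k) s) (zt m ^ (-k) * w) := by
  by_cases h : w ∈ slit m
  · rw [glue_of_slit h]
    have h1 : zt m ^ (-k) * w ∈ slit m := (zt_mul_slit hm _).2 h
    have h2 := rot_zpow hm hrot k (s := s) h1
    have h3 : zt m ^ k * (zt m ^ (-k) * w) = w := by
      rw [← mul_assoc, zpow_neg, mul_inv_cancel₀ (zpow_ne_zero _ (zt_ne m)), one_mul]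
    rw [h3] at h2
    rw [h2, hAG _ _ h1 hw]
  · have hex : ∃ k : ℤ, zt m ^ (-k) * w ∈ sec m := ⟨k, hw⟩
    unfold glue
    rw [if_neg h, dif_pos hex]
    obtain ⟨e1, e2⟩ := sector_unique hm hex.choose_spec hw
    rw [perm_zpow_eq hc e2, zpow_neg, zpow_neg, e1]

/-- near every point the glued curve is one of the pieces -/
theorem glue_local (hm : m ≠ 0) (hrot : ∀ s, ∀ w ∈ slit m, A s (zt m * w) = A (c s) w)
    (hAG : ∀ s, ∀ w ∈ slit m, w ∈ sec m → A s w = G s w) (hc : ∀ s, (c ^ m) s = s)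
    (s : S) (w : ℂ) : (w ∈ slit m ∧ glue A G c m s =ᶠ[𝓝 w] A s) ∨
      ∃ k : ℤ, zt m ^ (-k) * w ∈ sec m ∧
        glue A G c m s =ᶠ[𝓝 w] fun w => G ((c ^ k) s) (zt m ^ (-k) * w) := by
  rcases slit_or_sector hm w with h | ⟨k, hk⟩
  · exact Or.inl ⟨h, (isOpen_slit m).eventually_mem h |>.mono fun w hw => glue_of_slit hw⟩
  · refine Or.inr ⟨k, hk, ?_⟩
    have h1 : ∀ᶠ w' in 𝓝 w, zt m ^ (-k) * w' ∈ sec m :=
      (continuous_const.mul continuous_id).continuousAt.eventually_mem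
        ((isOpen_sec hm).mem_nhds hk)
    exact h1.mono fun w' hw' => glue_of_sector hm hrot hAG hc k hw'

theorem continuous_glue [TopologicalSpace Z] (hm : m ≠ 0)
    (hrot : ∀ s, ∀ w ∈ slit m, A s (zt m * w) = A (c s) w)
    (hAG : ∀ s, ∀ w ∈ slit m, w ∈ sec m → A s w = G s w) (hc : ∀ s, (c ^ m) s = s)
    (cA : ∀ s, ContinuousOn (A s) (slit m)) (cG : ∀ s, ContinuousOn (G s) (sec m)) (s : S) :
    Continuous (glue A G c m s) := by
  rw [continuous_iff_continuousAt]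
  intro w
  rcases glue_local hm hrot hAG hc s w with ⟨h, e⟩ | ⟨k, h, e⟩
  · exact ((cA s).continuousAt ((isOpen_slit m).mem_nhds h)).congr e.symm
  · refine ContinuousAt.congr ?_ e.symm
    have h1 : ContinuousAt (G ((c ^ k) s)) (zt m ^ (-k) * w) :=
      (cG _).continuousAt ((isOpen_sec hm).mem_nhds h)
    exact ContinuousAt.comp (f := fun w => zt m ^ (-k) * w) h1
      (continuous_const.mul continuous_id).continuousAt

end glue

end Vale.Agent.P300.Curve
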