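import Vale.Agent.P300.H354.Lev
import Vale.Agent.P300.H251.Conj
import Vale.Agent.P300.Spec.Geo

/-!
# P300, block [CURVE] (helper354): the good labels
-/

set_option autoImplicit false

open Set Filter Topology Complex

namespace Vale.Agent.P300.Curve

variable {G : Type} [Group G]

/-- The good labels `j : S → F`: fixed by `t₀''` and `t₀'`, stable under `c₂`, `c₃`, with orbits of
length `m`. -/
structure Good (A : Tor.Arr G) (F : Type) [MulAction G F] (m : ℕ) {S : Type} (j : S → F)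
    (c c' : Equiv.Perm S) : Prop where
  hm : 0 < m
  inj : Function.Injective j
  t'' : ∀ s, A.T0 • j s = j s
  t' : ∀ s, (A.c2⁻¹ * A.c1⁻¹ * A.T0) • j s = j s
  jc : ∀ s, j (c s) = A.c2⁻¹ • j s
  jc' : ∀ s, j (c' s) = A.c3⁻¹ • j s
  ord : ∀ (s : S) (k : ℤ), A.c2 ^ k • j s = j s ↔ (m : ℤ) ∣ k
  ord' : ∀ (s : S) (k : ℤ), A.c3 ^ k • j s = j s ↔ (m : ℤ) ∣ k

theorem zpow_fix {F : Type*} [MulAction G F] {g : G} {x : F} (h : g • x = x) (k : ℤ) :
    g ^ k • x = x :=
  MulAction.mem_stabilizer_iff.1 (zpow_mem (MulAction.mem_stabilizer_iff.2 h) k)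

theorem perm_apply {F : Type*} [MulAction G F] (a b : G) (k l : ℤ) (x : F) :
    ((MulAction.toPermHom G F a) ^ k * (MulAction.toPermHom G F b) ^ l) x = a ^ k • b ^ l • x := by
  rw [← _root_.map_zpow, ← _root_.map_zpow, Equiv.Perm.mul_apply]
  rfl

section good

variable {A : Tor.Arr G} {F : Type} [MulAction G F] {m : ℕ} {S : Type} {j : S → F}
  {c c' : Equiv.Perm S}

theorem Good.zpow (h : Good A F m j c c') (s : S) (k : ℤ) :
    j ((c ^ k) s) = (A.c2⁻¹) ^ k • j s := by
  have hn : ∀ (n : ℕ) (s : S), j ((c ^ n) s) = (A.c2⁻¹) ^ n • j s := by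
    intro n
    induction n with
    | zero => intro s; simp
    | succ n ih =>
      intro s
      rw [pow_succ', pow_succ', Equiv.Perm.mul_apply, h.jc, ih, mul_smul]
  obtain ⟨n, rfl | rfl⟩ := k.eq_nat_or_neg
  · rw [zpow_natCast, zpow_natCast]; exact hn n s
  · rw [zpow_neg, zpow_neg, zpow_natCast, zpow_natCast, eq_inv_smul_iff, ← hn]
    congr 1
    exact (c ^ n).apply_symm_apply s

theorem Good.zpow' (h : Good A F m j c c') (s : S) (k : ℤ) :
    j ((c' ^ k) s) = (A.c3⁻¹) ^ k • j s := by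
  have hn : ∀ (n : ℕ) (s : S), j ((c' ^ n) s) = (A.c3⁻¹) ^ n • j s := by
    intro n
    induction n with
    | zero => intro s; simp
    | succ n ih =>
      intro s
      rw [pow_succ', pow_succ', Equiv.Perm.mul_apply, h.jc', ih, mul_smul]
  obtain ⟨n, rfl | rfl⟩ := k.eq_nat_or_neg
  · rw [zpow_natCast, zpow_natCast]; exact hn n s
  · rw [zpow_neg, zpow_neg, zpow_natCast, zpow_natCast, eq_inv_smul_iff, ← hn]
    congr 1
    exact (c' ^ n).apply_symm_apply s

theorem Good.c_pow (h : Good A F m j c c') (s : S) : (c ^ m) s = s := by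
  apply h.inj
  have h1 := h.zpow s m
  rw [zpow_natCast] at h1
  rw [h1, inv_zpow, ← zpow_neg]
  exact (h.ord s _).2 (by simp)

theorem Good.c_pow' (h : Good A F m j c c') (s : S) : (c' ^ m) s = s := by
  apply h.inj
  have h1 := h.zpow' s m
  rw [zpow_natCast] at h1
  rw [h1, inv_zpow, ← zpow_neg]
  exact (h.ord' s _).2 (by simp)

/-- chart 5 -/
theorem Good.ord5 (h : Good A F m j c c') (s : S) :
    H753.Ord (MulAction.toPermHom G F (A.wa 5)) (MulAction.toPermHom G F (A.wb 5)) (j s) 1 1 where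
  p0 := one_pos
  q0 := one_pos
  iff k l := by
    have ea : A.wa 5 = A.T0 := rfl
    have eb : A.wb 5 = A.c2⁻¹ * A.c1⁻¹ * A.T0 := rfl
    rw [perm_apply, ea, eb, zpow_fix (h.t' s), zpow_fix (h.t'' s)]
    simp

/-- chart 6 -/
theorem Good.ord6 (h : Good A F m j c c') (s : S) :
    H753.Ord (MulAction.toPermHom G F (A.wa 6)) (MulAction.toPermHom G F (A.wb 6)) (j s) m 1 where
  p0 := h.hm
  q0 := one_pos
  iff k l := by
    have ea : A.wa 6 = A.c2⁻¹ := rfl
    have eb : A.wb 6 = A.c2⁻¹ * A.c1⁻¹ * A.T0 := rfl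
    rw [perm_apply, ea, eb, zpow_fix (h.t' s), inv_zpow, ← zpow_neg, h.ord]
    simp

/-- chart X -/
theorem Good.ord15 (h : Good A F m j c c') (s : S) :
    H753.Ord (MulAction.toPermHom G F (A.wa 15)) (MulAction.toPermHom G F (A.wb 15)) (j s) 1 m where
  p0 := one_pos
  q0 := h.hm
  iff k l := by
    have ea : A.wa 15 = A.T0 := rfl
    have eb : A.wb 15 = A.c3⁻¹ := rfl
    rw [perm_apply, ea, eb, ← h.zpow', zpow_fix (h.t'' _), h.zpow', inv_zpow, ← zpow_neg, h.ord']
    simp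

end good

end Vale.Agent.P300.Curve
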