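import Vale.Agent.P300.H354.Glue
import Vale.Agent.P300.H142.Kap
import Vale.Agent.P300.H753.Fin

/-!
# P300, block [CURVE] (helper354): the entire curves over `D'`, `D''` at every level

`Lev Z S m c c' H0 H1 H2`: `H0 s`, `H1 s`, `H2 s` are the charts of the completion `Z` at the node
`D' ∩ D''` (chart 5, unramified), at the node of `D' = {v = 0}` on the section `c₂` (chart 6) and at
the node of `D'' = {u = 0}` on the section `c₃` (chart X), for the good labels `s : S`.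
`E h b s : C(ℂ, Z)` (`b = false` : `D'`, `b = true` : `D''`).
-/

set_option autoImplicit false

open Set Filter Topology Complex

namespace Vale.Agent.P300.Curve

open Vale.Agent.P300.H753 (Om pw)
open Vale.Agent.P300.H142 (R)

variable {m : ℕ}

theorem mem_slit_iff {w : ℂ} : w ∈ slit m ↔ 1 - w ^ m ∈ slitPlane := by
  unfold slit
  rw [Set.mem_ofPred_eq, mem_slitPlane_iff, sub_re, sub_im, one_re, one_im]
  constructor
  · intro h
    by_cases h1 : (w ^ m).im = 0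
    · left
      by_contra h2
      exact h ⟨h1, by linarith⟩
    · right
      intro h2
      exact h1 (by linarith)
  · rintro h ⟨h1, h2⟩
    rcases h with h | h
    · linarith
    · exact h (by rw [h1]; norm_num)

theorem ne_of_slit {w : ℂ} (hw : w ∈ slit m) {t : ℝ} (ht : 1 ≤ t) : w ^ m ≠ t := by
  intro h
  refine hw ?_
  rw [h]
  exact ⟨ofReal_im t, by rwa [ofReal_re]⟩

theorem slit_of_ne {w : ℂ} (h : ∀ t : ℝ, 1 ≤ t → w ^ m ≠ t) : w ∈ slit m := by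
  rintro ⟨h1, h2⟩
  exact h _ h2 (Complex.ext (by simp) (by simpa using h1))

theorem mem_R_left {w : ℂ} : (w, 0) ∈ R ↔ ∀ t : ℝ, 1 ≤ t → w ≠ t := by
  constructor
  · intro h t ht
    exact (h t ht).1
  · intro h t ht
    have ht0 : (t : ℂ) ≠ 0 := by
      intro h0
      have := ofReal_eq_zero.1 h0
      linarith
    exact ⟨h t ht, ht0.symm, by simpa using ht0.symm⟩

theorem mem_R_right {w : ℂ} : (0, w) ∈ R ↔ ∀ t : ℝ, 1 ≤ t → w ≠ t := by
  constructor
  · intro h t ht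
    exact (h t ht).2.1
  · intro h t ht
    have ht0 : (t : ℂ) ≠ 0 := by
      intro h0
      have := ofReal_eq_zero.1 h0
      linarith
    exact ⟨ht0.symm, h t ht, by simpa using ht0.symm⟩

theorem mem_Om_left {w : ℂ} {q : ℕ} (hq : q ≠ 0) : (w, 0) ∈ Om R m q ↔ w ∈ slit m := by
  show (w ^ m, (0 : ℂ) ^ q) ∈ R ↔ _
  rw [zero_pow hq, mem_R_left]
  exact ⟨slit_of_ne, fun h t ht => ne_of_slit h ht⟩

theorem mem_Om_right {w : ℂ} {q : ℕ} (hq : q ≠ 0) : (0, w) ∈ Om R q m ↔ w ∈ slit m := by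
  show ((0 : ℂ) ^ q, w ^ m) ∈ R ↔ _
  rw [zero_pow hq, mem_R_right]
  exact ⟨slit_of_ne, fun h t ht => ne_of_slit h ht⟩

theorem one_sub_mem_slit (hm : m ≠ 0) {w : ℂ} (hw : w ∈ sec m) : 1 - w ^ m ∈ slit 1 := by
  rw [mem_slit_iff, pow_one, sub_sub_cancel]
  exact pow_mem_of_sec hm hw

theorem one_mem_sec (hm : m ≠ 0) : (1 : ℂ) ∈ sec m := by
  refine ⟨one_ne_zero, ?_⟩
  rw [arg_one, abs_zero]
  have hm' : (0:ℝ) < m := by exact_mod_cast Nat.pos_of_ne_zero hm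
  exact div_pos Real.pi_pos hm'

/-- the charts at the three nodes, for the good labels -/
structure Lev (Z S : Type*) [TopologicalSpace Z] (m : ℕ) (c c' : Equiv.Perm S)
    (H0 H1 H2 : S → ℂ × ℂ → Z) : Prop where
  hm : m ≠ 0
  H0_cont : ∀ s, ContinuousOn (H0 s) (Om R 1 1)
  H1_cont : ∀ s, ContinuousOn (H1 s) (Om R m 1)
  H2_cont : ∀ s, ContinuousOn (H2 s) (Om R 1 m)
  c_pow : ∀ s, (c ^ m) s = s
  c_pow' : ∀ s, (c' ^ m) s = s
  rot1 : ∀ s, ∀ r ∈ slit m, H1 s (zt m * r, 0) = H1 (c s) (r, 0)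
  rot2 : ∀ s, ∀ r ∈ slit m, H2 s (0, zt m * r) = H2 (c' s) (0, r)
  mat1 : ∀ s, ∀ r ∈ slit m, r ∈ sec m → H1 s (r, 0) = H0 s (1 - r ^ m, 0)
  mat2 : ∀ s, ∀ r ∈ slit m, r ∈ sec m → H2 s (0, r) = H0 s (0, 1 - r ^ m)

section lev

variable {Z S : Type*} [TopologicalSpace Z] {c c' : Equiv.Perm S} {H0 H1 H2 : S → ℂ × ℂ → Z}

theorem Lev.cont1 (h : Lev Z S m c c' H0 H1 H2) (s : S) :
    Continuous (glue (fun s w => H1 s (w, 0)) (fun s w => H0 s (1 - w ^ m, 0)) c m s) := by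
  refine continuous_glue h.hm h.rot1 (fun s w hw hw' => h.mat1 s w hw hw') h.c_pow ?_ ?_ s
  · intro s
    refine (h.H1_cont s).comp (by fun_prop) fun w hw => ?_
    exact (mem_Om_left one_ne_zero).2 hw
  · intro s
    refine (h.H0_cont s).comp (by fun_prop) fun w hw => ?_
    exact (mem_Om_left one_ne_zero).2 (one_sub_mem_slit h.hm hw)

theorem Lev.cont2 (h : Lev Z S m c c' H0 H1 H2) (s : S) :
    Continuous (glue (fun s w => H2 s (0, w)) (fun s w => H0 s (0, 1 - w ^ m)) c' m s) := by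
  refine continuous_glue h.hm h.rot2 (fun s w hw hw' => h.mat2 s w hw hw') h.c_pow' ?_ ?_ s
  · intro s
    refine (h.H2_cont s).comp (by fun_prop) fun w hw => ?_
    exact (mem_Om_right one_ne_zero).2 hw
  · intro s
    refine (h.H0_cont s).comp (by fun_prop) fun w hw => ?_
    exact (mem_Om_right one_ne_zero).2 (one_sub_mem_slit h.hm hw)

/-- the entire curve over `D'` (`b = false`) or `D''` (`b = true`) with the label `s` -/
noncomputable def Lev.E (h : Lev Z S m c c' H0 H1 H2) (b : Bool) (s : S) : C(ℂ, Z) :=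
  match b with
  | false => ⟨_, h.cont1 s⟩
  | true => ⟨_, h.cont2 s⟩

/-- the permutation of the labels for the two curves -/
def cc (c c' : Equiv.Perm S) (b : Bool) : Equiv.Perm S :=
  match b with
  | false => c
  | true => c'

theorem Lev.E_slit (h : Lev Z S m c c' H0 H1 H2) (s : S) {w : ℂ} (hw : w ∈ slit m) :
    h.E false s w = H1 s (w, 0) :=
  glue_of_slit (A := fun s w => H1 s (w, 0)) (G := fun s w => H0 s (1 - w ^ m, 0)) (c := c) hw

theorem Lev.E_slit' (h : Lev Z S m c c' H0 H1 H2) (s : S) {w : ℂ} (hw : w ∈ slit m) :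
    h.E true s w = H2 s (0, w) :=
  glue_of_slit (A := fun s w => H2 s (0, w)) (G := fun s w => H0 s (0, 1 - w ^ m)) (c := c') hw

theorem Lev.E_sec (h : Lev Z S m c c' H0 H1 H2) (s : S) {k : ℤ} {w : ℂ}
    (hw : zt m ^ (-k) * w ∈ sec m) : h.E false s w = H0 ((c ^ k) s) (1 - w ^ m, 0) := by
  have h1 := glue_of_sector (A := fun s w => H1 s (w, 0)) (G := fun s w => H0 s (1 - w ^ m, 0))
    h.hm h.rot1 (fun s w hw hw' => h.mat1 s w hw hw') h.c_pow k (s := s) hw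
  rw [zpow_zt_pow h.hm] at h1
  exact h1

theorem Lev.E_sec' (h : Lev Z S m c c' H0 H1 H2) (s : S) {k : ℤ} {w : ℂ}
    (hw : zt m ^ (-k) * w ∈ sec m) : h.E true s w = H0 ((c' ^ k) s) (0, 1 - w ^ m) := by
  have h1 := glue_of_sector (A := fun s w => H2 s (0, w)) (G := fun s w => H0 s (0, 1 - w ^ m))
    h.hm h.rot2 (fun s w hw hw' => h.mat2 s w hw hw') h.c_pow' k (s := s) hw
  rw [zpow_zt_pow h.hm] at h1
  exact h1

theorem zt_zpow_pow (hm : m ≠ 0) (k : ℤ) : (zt m ^ k) ^ m = 1 := by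
  have := zpow_zt_pow hm k 1
  rwa [mul_one, one_pow] at this

/-- the nodes on the curves -/
theorem Lev.E_node (h : Lev Z S m c c' H0 H1 H2) (b : Bool) (s : S) (k : ℤ) :
    h.E b s (zt m ^ k) = H0 ((cc c c' b ^ k) s) (0, 0) := by
  have h1 : zt m ^ (-k) * zt m ^ k ∈ sec m := by
    rw [zpow_neg, inv_mul_cancel₀ (zpow_ne_zero _ (zt_ne m))]
    exact one_mem_sec h.hm
  cases b
  · rw [h.E_sec s h1, zt_zpow_pow h.hm, sub_self]
    rfl
  · rw [h.E_sec' s h1, zt_zpow_pow h.hm, sub_self]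
    rfl

/-- naturality -/
theorem Lev.E_map (h : Lev Z S m c c' H0 H1 H2) {Z' S' : Type*} [TopologicalSpace Z']
    {d d' : Equiv.Perm S'} {G0 G1 G2 : S' → ℂ × ℂ → Z'} (h' : Lev Z' S' m d d' G0 G1 G2)
    {q : Z → Z'} {φ : S → S'} (hc : ∀ s, φ (c s) = d (φ s)) (hc' : ∀ s, φ (c' s) = d' (φ s))
    (q0 : ∀ s, ∀ x ∈ Om R 1 1, q (H0 s x) = G0 (φ s) x)
    (q1 : ∀ s, ∀ x ∈ Om R m 1, q (H1 s x) = G1 (φ s) x)
    (q2 : ∀ s, ∀ x ∈ Om R 1 m, q (H2 s x) = G2 (φ s) x) (b : Bool) (s : S) (w : ℂ) :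
    q (h.E b s w) = h'.E b (φ s) w := by
  have hz : ∀ (e : Equiv.Perm S) (e' : Equiv.Perm S'), (∀ s, φ (e s) = e' (φ s)) →
      ∀ (k : ℤ) (s : S), φ ((e ^ k) s) = (e' ^ k) (φ s) := by
    intro e e' he k
    have hn : ∀ (n : ℕ) (s : S), φ ((e ^ n) s) = (e' ^ n) (φ s) := by
      intro n
      induction n with
      | zero => intro s; simp
      | succ n ih => intro s; rw [pow_succ, pow_succ, Equiv.Perm.mul_apply, Equiv.Perm.mul_apply,
          ih, he]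
    intro s
    obtain ⟨n, rfl | rfl⟩ := k.eq_nat_or_neg
    · rw [zpow_natCast, zpow_natCast]; exact hn n s
    · rw [zpow_neg, zpow_neg, zpow_natCast, zpow_natCast, Equiv.Perm.eq_inv_iff_eq, ← hn]
      congr 1
      exact (e ^ n).apply_symm_apply s
  rcases slit_or_sector h.hm w with hw | ⟨k, hk⟩
  · cases b
    · rw [h.E_slit s hw, h'.E_slit _ hw]
      exact q1 s _ ((mem_Om_left one_ne_zero).2 hw)
    · rw [h.E_slit' s hw, h'.E_slit' _ hw]
      exact q2 s _ ((mem_Om_right one_ne_zero).2 hw)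
  · have h1 : (1 - w ^ m) ∈ slit 1 := by
      have := one_sub_mem_slit h.hm hk
      rwa [zpow_zt_pow h.hm] at this
    cases b
    · rw [h.E_sec s hk, h'.E_sec _ hk, q0 _ _ ((mem_Om_left one_ne_zero).2 h1), hz _ _ hc]
    · rw [h.E_sec' s hk, h'.E_sec' _ hk, q0 _ _ ((mem_Om_right one_ne_zero).2 h1), hz _ _ hc']

/-- the projection to `Y` -/
theorem Lev.E_proj (h : Lev Z S m c c' H0 H1 H2) {Y : Type*} {π : Z → Y} {κ0 κ1 κ2 : ℂ × ℂ → Y}
    (p0 : ∀ s, ∀ x ∈ Om R 1 1, π (H0 s x) = κ0 x)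
    (p1 : ∀ s, ∀ x ∈ Om R m 1, π (H1 s x) = κ1 (pw m 1 x))
    (p2 : ∀ s, ∀ x ∈ Om R 1 m, π (H2 s x) = κ2 (pw 1 m x)) {f : Bool → ℂ → Y}
    (f1 : ∀ w : ℂ, (w, 0) ∈ R → f false w = κ1 (w, 0))
    (f0 : ∀ w : ℂ, (1 - w, 0) ∈ R → f false w = κ0 (1 - w, 0))
    (f1' : ∀ w : ℂ, (0, w) ∈ R → f true w = κ2 (0, w))
    (f0' : ∀ w : ℂ, (0, 1 - w) ∈ R → f true w = κ0 (0, 1 - w)) (b : Bool) (s : S) (w : ℂ) :
    π (h.E b s w) = f b (w ^ m) := by
  rcases slit_or_sector h.hm w with hw | ⟨k, hk⟩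
  · cases b
    · have h1 := (mem_Om_left (q := 1) one_ne_zero).2 hw
      rw [h.E_slit s hw, p1 _ _ h1, f1]
      · unfold pw; simp
      · have h2 : (w ^ m, (0:ℂ) ^ 1) ∈ R := h1
        simpa using h2
    · have h1 := (mem_Om_right (q := 1) one_ne_zero).2 hw
      rw [h.E_slit' s hw, p2 _ _ h1, f1']
      · unfold pw; simp
      · have h2 : ((0:ℂ) ^ 1, w ^ m) ∈ R := h1
        simpa using h2
  · have h1 : (1 - w ^ m) ∈ slit 1 := by
      have := one_sub_mem_slit h.hm hk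
      rwa [zpow_zt_pow h.hm] at this
    cases b
    · have h2 := (mem_Om_left (q := 1) one_ne_zero).2 h1
      rw [h.E_sec s hk, p0 _ _ h2, f0]
      have h3 : ((1 - w ^ m) ^ 1, (0:ℂ) ^ 1) ∈ R := h2
      simpa using h3
    · have h2 := (mem_Om_right (q := 1) one_ne_zero).2 h1
      rw [h.E_sec' s hk, p0 _ _ h2, f0']
      have h3 : ((0:ℂ) ^ 1, (1 - w ^ m) ^ 1) ∈ R := h2
      simpa using h3

end lev

end Vale.Agent.P300.Curve
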